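/-
P217, block E: points of the generic fibre and periods.
-/
import Vale.Agent.P217.Defs

noncomputable section

namespace Vale.Agent.P217.Generic

open MvPowerSeries

variable (p n : ℕ) [Fact p.Prime]

/-- A point of the generic fibre of the deformation space with values in a normed field. -/
structure Point (L : Type) [NormedField L] where
  ev : LT p n →+* L
  rho : ℝ
  rho_lt : rho < 1
  norm_le_one : ∀ a, ‖ev a‖ ≤ 1
  norm_le_rho : ∀ a ∈ IsLocalRing.maximalIdeal (LT p n), ‖ev a‖ ≤ rho
  p_ne : ev (p : LT p n) ≠ 0

variable {L : Type} [Field L]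

/-- Column `N`: the logarithm coefficient `m_N` at `x` and its partial derivatives. -/
def col (x : ℕ → L) : ℕ → Fin n → L
  | 0 => fun r => if r.val = 0 then 1 else 0
  | N + 1 => fun r => (p : L)⁻¹ * ∑ i : Fin (N + 1),
      if i.val < n then
        x (i.val + 1) ^ p ^ (N - i.val) * col x (N - i.val) r +
          if r.val = i.val + 1 then
            (p : L) ^ (N - i.val) * x (i.val + 1) ^ (p ^ (N - i.val) - 1) *
              if h : 0 < n then col x (N - i.val) ⟨0, h⟩ else 0
          else 0
      else 0
  decreasing_by all_goals omega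

/-- The logarithm coefficient `m_N` at `x`. -/
def mval (x : ℕ → L) (N : ℕ) : L := if h : 0 < n then col p n x N ⟨0, h⟩ else 0

end Vale.Agent.P217.Generic
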