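/-
P217, block E: growth of the logarithm coefficients and of their first and second differences.
-/
import Vale.Agent.P217.Generic.Defs

noncomputable section

namespace Vale.Agent.P217.Generic

open IsUltrametricDist

set_option linter.unusedSectionVars false

variable (p n : ℕ) [Fact p.Prime] (L : Type) [NormedField L]

/-- `0 < ‖p‖ < 1`. -/
structure PSmall : Prop where
  pos : 0 < ‖(p : L)‖
  lt : ‖(p : L)‖ < 1

/-- `‖p‖^(1/n)`. -/
def theta : ℝ := ‖(p : L)‖ ^ ((n : ℝ)⁻¹)

variable {L}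

/-- The coordinates `x_1, …, x_{n-1}` have norm at most `ρ`, and `x_n = 1`. -/
structure Small (x : ℕ → L) (ρ : ℝ) : Prop where
  nonneg : 0 ≤ ρ
  lt : ρ < 1
  top : x n = 1
  small : ∀ i, 1 ≤ i → i < n → ‖x i‖ ≤ ρ

variable {p n}

lemma PSmall.ne_zero (hP : PSmall p L) : (p : L) ≠ 0 := norm_pos_iff.1 hP.pos

lemma theta_pos (hP : PSmall p L) : 0 < theta p n L := Real.rpow_pos_of_pos hP.pos _

lemma theta_le_one (hP : PSmall p L) : theta p n L ≤ 1 :=
  Real.rpow_le_one hP.pos.le hP.lt.le (by positivity)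

lemma theta_pow (hn : 1 ≤ n) : theta p n L ^ n = ‖(p : L)‖ := by
  rw [theta, Real.rpow_inv_natCast_pow (norm_nonneg _) (by omega)]

lemma Small.norm_le_one {x : ℕ → L} {ρ : ℝ} (hx : Small n x ρ) {i : ℕ} (hi : i < n) :
    ‖x (i + 1)‖ ≤ 1 := by
  rcases eq_or_lt_of_le (Nat.succ_le_of_lt hi) with h | h
  · rw [show i + 1 = n from h, hx.top, norm_one]
  · exact (hx.small _ (by omega) h).trans hx.lt.le

/-- A bound stable under a recursion with bounded initial amplification. -/
lemma growth {a : ℕ → ℝ} {A c : ℝ} {N0 : ℕ} (hA : 1 ≤ A) (hc : 0 ≤ c)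
    (h1 : ∀ N B, c ≤ B → (∀ j ≤ N, a j ≤ B) → a (N + 1) ≤ A * B)
    (h2 : ∀ N B, c ≤ B → (∀ j ≤ N, a j ≤ B) → N0 ≤ N → a (N + 1) ≤ B) :
    ∀ N, a N ≤ A ^ N0 * max (a 0) c := by
  set B0 := max (a 0) c
  have hB0 : 0 ≤ B0 := hc.trans (le_max_right _ _)
  have key : ∀ N, ∀ j ≤ N, a j ≤ A ^ min N N0 * B0 := by
    intro N
    induction N with
    | zero =>
      intro j hj
      rw [Nat.le_zero.1 hj]
      simp [B0]
    | succ N ih =>
      intro j hj
      rcases Nat.lt_or_eq_of_le hj with h | rfl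
      · exact (ih j (by omega)).trans (mul_le_mul_of_nonneg_right
          (pow_le_pow_right₀ hA (by omega)) hB0)
      have hcB : c ≤ A ^ min N N0 * B0 :=
        (le_max_right _ _).trans (le_mul_of_one_le_left hB0 (one_le_pow₀ hA))
      by_cases h : N < N0
      · refine (h1 N _ hcB ih).trans (le_of_eq ?_)
        rw [← mul_assoc, ← pow_succ', show min N N0 + 1 = min (N + 1) N0 by omega]
      · refine (h2 N _ hcB ih (not_lt.1 h)).trans (le_of_eq ?_)
        rw [show min N N0 = min (N + 1) N0 by omega]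
  exact fun N => (key N N le_rfl).trans (mul_le_mul_of_nonneg_right
    (pow_le_pow_right₀ hA (min_le_right _ _)) hB0)

variable [IsUltrametricDist L]

/-- The weighted bound for solutions of the recursion with a forcing term. -/
theorem exists_bound (hP : PSmall p L) (hn : 1 ≤ n) {ρ : ℝ} (hρ0 : 0 ≤ ρ) (hρ1 : ρ < 1) :
    ∃ K : ℝ, 1 ≤ K ∧ ∀ (x : ℕ → L), Small n x ρ → ∀ (s : ℕ → L) (f : ℕ → ℕ → L) (c : ℝ), 0 ≤ c →
      (∀ N, (p : L) * s (N + 1) = ∑ i ∈ Finset.range (N + 1),
        if i < n then x (i + 1) ^ p ^ (N - i) * s (N - i) + f N i else 0) →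
      (∀ N i, i < n → i ≤ N → theta p n L ^ (N + 1) * ‖f N i‖ ≤ ‖(p : L)‖ * c) →
      ∀ N, theta p n L ^ N * ‖s N‖ ≤ K * max ‖s 0‖ c := by
  set π := ‖(p : L)‖ with hπ
  set θ := theta p n L with hθ
  obtain ⟨M, hM⟩ := exists_pow_lt_of_lt_one hP.pos hρ1
  refine ⟨π⁻¹ ^ (M + n), one_le_pow₀ ((one_le_inv₀ hP.pos).2 hP.lt.le),
    fun x hx s f c hc hrec hf N => ?_⟩
  have hθ0 : 0 < θ := theta_pos hP
  have hstep : ∀ N B, c ≤ B → (∀ j ≤ N, θ ^ j * ‖s j‖ ≤ B) → ∀ (C : ℝ), 1 ≤ C →
      (∀ i, i < n → i ≤ N → ‖x (i + 1)‖ ^ p ^ (N - i) * θ ^ (i + 1) ≤ π * C) →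
      θ ^ (N + 1) * ‖s (N + 1)‖ ≤ C * B := by
    intro N B hcB hB C hC hterm
    have hB0 : 0 ≤ B := hc.trans hcB
    have hCB : 0 ≤ π * (C * B) := by positivity
    have h : π * (θ ^ (N + 1) * ‖s (N + 1)‖) ≤ π * (C * B) := by
      calc π * (θ ^ (N + 1) * ‖s (N + 1)‖) = θ ^ (N + 1) * ‖(p : L) * s (N + 1)‖ := by
            rw [norm_mul, hπ]; ring
        _ ≤ θ ^ (N + 1) * (π * (C * B) / θ ^ (N + 1)) := by
            refine mul_le_mul_of_nonneg_left ?_ (pow_nonneg hθ0.le _)
            rw [hrec]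
            refine norm_sum_le_of_forall_le_of_nonneg (by positivity) fun i hi => ?_
            rw [Finset.mem_range, Nat.lt_succ_iff] at hi
            rw [le_div_iff₀ (pow_pos hθ0 _), mul_comm]
            by_cases hin : i < n
            swap
            · simpa [hin] using hCB
            rw [if_pos hin]
            refine (mul_le_mul_of_nonneg_left (norm_add_le_max _ _) (pow_nonneg hθ0.le _)).trans ?_
            rw [mul_max_of_nonneg _ _ (pow_nonneg hθ0.le _), norm_mul, norm_pow]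
            refine max_le ?_ ?_
            · calc θ ^ (N + 1) * (‖x (i + 1)‖ ^ p ^ (N - i) * ‖s (N - i)‖)
                  = (‖x (i + 1)‖ ^ p ^ (N - i) * θ ^ (i + 1)) * (θ ^ (N - i) * ‖s (N - i)‖) := by
                    rw [show N + 1 = (i + 1) + (N - i) by omega, pow_add]
                    ring
                _ ≤ π * C * B :=
                    mul_le_mul (hterm i hin hi) (hB _ (Nat.sub_le _ _)) (by positivity) (by positivity)
                _ = _ := by ring
            · calc θ ^ (N + 1) * ‖f N i‖ ≤ π * c := hf N i hin hi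
                _ ≤ _ := mul_le_mul_of_nonneg_left
                    (hcB.trans (le_mul_of_one_le_left hB0 hC)) hP.pos.le
        _ = π * (C * B) := by field_simp
    exact le_of_mul_le_mul_left h hP.pos
  have hg := growth (a := fun N => θ ^ N * ‖s N‖) (A := π⁻¹) (c := c) (N0 := M + n)
    ((one_le_inv₀ hP.pos).2 hP.lt.le) hc
    (fun N B hcB hB => hstep N B hcB hB _ ((one_le_inv₀ hP.pos).2 hP.lt.le) fun i hi _ => by
      rw [mul_inv_cancel₀ hP.pos.ne']
      exact mul_le_one₀ (pow_le_one₀ (norm_nonneg _) (hx.norm_le_one hi)) (pow_nonneg hθ0.le _)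
        (pow_le_one₀ hθ0.le (theta_le_one hP)))
    (fun N B hcB hB hN => by
      refine (hstep N B hcB hB 1 le_rfl fun i hi _ => ?_).trans (one_mul B).le
      rw [mul_one]
      rcases eq_or_lt_of_le (Nat.succ_le_of_lt hi) with h | h
      · rw [show i + 1 = n from h, hx.top, norm_one, one_pow, one_mul, hθ, theta_pow hn]
      · refine (mul_le_of_le_one_right (by positivity)
          (pow_le_one₀ hθ0.le (theta_le_one hP))).trans ?_
        calc ‖x (i + 1)‖ ^ p ^ (N - i) ≤ ρ ^ p ^ (N - i) :=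
              pow_le_pow_left₀ (norm_nonneg _) (hx.small _ (by omega) h) _
          _ ≤ ρ ^ M := pow_le_pow_of_le_one hρ0 hρ1.le
              ((show M ≤ N - i by omega).trans
                (Nat.lt_pow_self (Nat.Prime.one_lt Fact.out)).le)
          _ ≤ π := hM.le) N
  simpa using hg

/-- The power map is Lipschitz on the unit ball. -/
lemma norm_pow_sub_pow_le {a b : L} {r : ℝ} (ha : ‖a‖ ≤ 1) (hb : ‖b‖ ≤ 1) (hr : ‖b - a‖ ≤ r) :
    ∀ q : ℕ, ‖b ^ q - a ^ q‖ ≤ r
  | 0 => by simpa using (norm_nonneg _).trans hr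
  | q + 1 => by
    rw [show b ^ (q + 1) - a ^ (q + 1) = b * (b ^ q - a ^ q) + a ^ q * (b - a) by ring]
    refine (norm_add_le_max _ _).trans (max_le ?_ ?_)
    · rw [norm_mul]
      exact (mul_le_of_le_one_left (norm_nonneg _) hb).trans (norm_pow_sub_pow_le ha hb hr q)
    · rw [norm_mul, norm_pow]
      exact (mul_le_of_le_one_left (norm_nonneg _) (pow_le_one₀ (norm_nonneg _) ha)).trans hr

/-- Second order bound for the power map. -/
lemma norm_pow_sub_linear_le {a b : L} {r : ℝ} (ha : ‖a‖ ≤ 1) (hb : ‖b‖ ≤ 1) (hr : ‖b - a‖ ≤ r) :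
    ∀ q : ℕ, ‖b ^ q - a ^ q - (q : L) * a ^ (q - 1) * (b - a)‖ ≤ r ^ 2
  | 0 => by simpa using sq_nonneg r
  | q + 1 => by
    have h0 : 0 ≤ r := (norm_nonneg _).trans hr
    rw [Nat.add_sub_cancel, show b ^ (q + 1) - a ^ (q + 1) - ((q + 1 : ℕ) : L) * a ^ q * (b - a) =
      b * (b ^ q - a ^ q - (q : L) * a ^ (q - 1) * (b - a)) +
        (q : L) * a ^ (q - 1) * (b - a) * (b - a) by
      rcases q with _ | q
      · simp
      · push_cast
        ring]
    refine (norm_add_le_max _ _).trans (max_le ?_ ?_)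
    · rw [norm_mul]
      exact (mul_le_of_le_one_left (norm_nonneg _) hb).trans (norm_pow_sub_linear_le ha hb hr q)
    · rw [norm_mul, norm_mul, norm_mul, norm_pow, sq]
      refine mul_le_mul ?_ hr (norm_nonneg _) h0
      refine (mul_le_of_le_one_left (norm_nonneg _) ?_).trans hr
      exact mul_le_one₀ (IsUltrametricDist.norm_natCast_le_one L q) (pow_nonneg (norm_nonneg _) _)
        (pow_le_one₀ (norm_nonneg _) ha)

end Vale.Agent.P217.Generic
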