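/-
P217, block E: bounds for the logarithm coefficients, their derivatives and their second differences.
-/
import Vale.Agent.P217.Generic.Growth

noncomputable section

namespace Vale.Agent.P217.Generic

open IsUltrametricDist

set_option linter.unusedSectionVars false

variable {p n : ℕ} [Fact p.Prime] {L : Type} [NormedField L]

lemma col_zero (x : ℕ → L) (r : Fin n) : col p n x 0 r = if r.val = 0 then 1 else 0 := by
  rw [col]

lemma col_succ (hp : (p : L) ≠ 0) (x : ℕ → L) (N : ℕ) (r : Fin n) :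
    (p : L) * col p n x (N + 1) r = ∑ i ∈ Finset.range (N + 1), if i < n then
      x (i + 1) ^ p ^ (N - i) * col p n x (N - i) r +
        (if r.val = i + 1 then
          (p : L) ^ (N - i) * x (i + 1) ^ (p ^ (N - i) - 1) * mval p n x (N - i) else 0) else 0 := by
  rw [col, ← mul_assoc, mul_inv_cancel₀ hp, one_mul, ← Fin.sum_univ_eq_sum_range (fun i => if i < n then
      x (i + 1) ^ p ^ (N - i) * col p n x (N - i) r +
        (if r.val = i + 1 then
          (p : L) ^ (N - i) * x (i + 1) ^ (p ^ (N - i) - 1) * mval p n x (N - i) else 0) else 0)]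
  rfl

lemma mval_zero (hn : 1 ≤ n) (x : ℕ → L) : mval p n x 0 = 1 := by
  rw [mval, dif_pos (by omega : 0 < n), col_zero, if_pos rfl]

lemma mval_succ (hn : 1 ≤ n) (hp : (p : L) ≠ 0) (x : ℕ → L) (N : ℕ) :
    (p : L) * mval p n x (N + 1) = ∑ i ∈ Finset.range (N + 1), if i < n then
      x (i + 1) ^ p ^ (N - i) * mval p n x (N - i) else 0 := by
  simp only [mval, dif_pos (by omega : 0 < n)]
  rw [col_succ hp]
  refine Finset.sum_congr rfl fun i _ => ?_
  simp

/-- The displacement `y - x` in the coordinates `1, …, n-1`. -/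
def dvec (x y : ℕ → L) (c : Fin n) : L := if c.val = 0 then 0 else y c.val - x c.val

variable [IsUltrametricDist L]

lemma norm_step_le {x y : ℕ → L} {ρ δ : ℝ} (hx : Small n x ρ) (hy : Small n y ρ) (hδ0 : 0 ≤ δ)
    (hδ : ∀ i, 1 ≤ i → i < n → ‖y i - x i‖ ≤ δ) {i : ℕ} (hi : i < n) :
    ‖y (i + 1) - x (i + 1)‖ ≤ δ := by
  rcases eq_or_lt_of_le (Nat.succ_le_of_lt hi) with h | h
  · rw [show i + 1 = n from h, hx.top, hy.top, sub_self, norm_zero]
    exact hδ0
  · exact hδ _ (by omega) h

/-- Uniform bounds for columns, and for the second differences of the coefficients. -/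
theorem exists_bounds (hP : PSmall p L) (hn : 1 ≤ n) {ρ : ℝ} (hρ0 : 0 ≤ ρ) (hρ1 : ρ < 1) :
    ∃ K : ℝ, 1 ≤ K ∧ ∀ x : ℕ → L, Small n x ρ →
      (∀ N r, theta p n L ^ N * ‖col p n x N r‖ ≤ K) ∧
      ∀ y : ℕ → L, Small n y ρ → ∀ δ : ℝ, 0 ≤ δ → (∀ i, 1 ≤ i → i < n → ‖y i - x i‖ ≤ δ) → ∀ N,
        theta p n L ^ N * ‖mval p n y N - mval p n x N -
          ∑ c : Fin n, dvec x y c * col p n x N c‖ ≤ K * δ ^ 2 := by
  obtain ⟨K, hK1, hK⟩ := exists_bound hP hn hρ0 hρ1
  set π := ‖(p : L)‖ with hπ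
  set θ := theta p n L with hθ
  have hπ1 : 1 ≤ π⁻¹ := (one_le_inv₀ hP.pos).2 hP.lt.le
  have hθ0 := theta_pos (n := n) hP
  have hθ1 := theta_le_one (n := n) hP
  have hK0 : 0 ≤ K := zero_le_one.trans hK1
  have hπ0 : π ≠ 0 := hP.pos.ne'
  -- coefficients
  have hm : ∀ x : ℕ → L, Small n x ρ → ∀ N, θ ^ N * ‖mval p n x N‖ ≤ K := by
    intro x hx N
    have h := hK x hx (mval p n x) (fun _ _ => 0) 1 zero_le_one
      (fun N => by simpa using mval_succ hn hP.ne_zero x N)
      (fun N i _ _ => by simp [π]) N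
    rw [mval_zero hn, norm_one, max_self, mul_one] at h
    exact h
  -- a forcing term attached to an earlier weighted bound
  have hforce : ∀ {N i : ℕ}, i ≤ N → ∀ {a b : L} {A B : ℝ}, ‖a‖ ≤ A → θ ^ (N - i) * ‖b‖ ≤ B →
      θ ^ (N + 1) * ‖a * b‖ ≤ A * B := by
    intro N i hi a b A B ha hb
    have hB : 0 ≤ B := le_trans (by positivity) hb
    have hA : 0 ≤ A := (norm_nonneg a).trans ha
    rw [norm_mul, show N + 1 = (i + 1) + (N - i) by omega, pow_add]
    calc θ ^ (i + 1) * θ ^ (N - i) * (‖a‖ * ‖b‖) = θ ^ (i + 1) * (‖a‖ * (θ ^ (N - i) * ‖b‖)) := by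
          ring
      _ ≤ 1 * (A * B) := mul_le_mul (pow_le_one₀ hθ0.le hθ1)
          (mul_le_mul ha hb (by positivity) hA) (by positivity) zero_le_one
      _ = A * B := one_mul _
  -- columns
  have hcol : ∀ x : ℕ → L, Small n x ρ → ∀ N r, θ ^ N * ‖col p n x N r‖ ≤ K * (K * π⁻¹) := by
    intro x hx N r
    have hc0 : (1 : ℝ) ≤ K * π⁻¹ := one_le_mul_of_one_le_of_one_le hK1 hπ1
    have h := hK x hx (fun N => col p n x N r) (fun N i => if r.val = i + 1 then
      (p : L) ^ (N - i) * x (i + 1) ^ (p ^ (N - i) - 1) * mval p n x (N - i) else 0) (K * π⁻¹)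
      (zero_le_one.trans hc0) (fun N => col_succ hP.ne_zero x N r) (fun N i hi hiN => by
        rw [show π * (K * π⁻¹) = 1 * K by field_simp [hπ0]]
        split_ifs
        · refine hforce hiN ?_ (hm x hx _)
          rw [norm_mul, norm_pow, norm_pow]
          exact mul_le_one₀ (pow_le_one₀ (norm_nonneg _) hP.lt.le) (pow_nonneg (norm_nonneg _) _)
            (pow_le_one₀ (norm_nonneg _) (hx.norm_le_one hi))
        · simpa using hK0) N
    refine h.trans (mul_le_mul_of_nonneg_left (max_le ?_ le_rfl) hK0)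
    rw [col_zero]
    split_ifs
    · simpa using hc0
    · simpa using zero_le_one.trans hc0
  refine ⟨max (K * (K * π⁻¹)) (K * (K * (K * π⁻¹) * π⁻¹)),
    le_max_of_le_left (one_le_mul_of_one_le_of_one_le hK1 (one_le_mul_of_one_le_of_one_le hK1 hπ1)),
    fun x hx => ⟨fun N r => (hcol x hx N r).trans (le_max_left _ _),
      fun y hy δ hδ0 hδ N => ?_⟩⟩
  -- first differences
  have hd : ∀ N, θ ^ N * ‖mval p n y N - mval p n x N‖ ≤ K * (K * π⁻¹ * δ) := by
    intro N
    have h := hK x hx (fun N => mval p n y N - mval p n x N)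
      (fun N i => (y (i + 1) ^ p ^ (N - i) - x (i + 1) ^ p ^ (N - i)) * mval p n y (N - i))
      (K * π⁻¹ * δ) (by positivity) (fun N => by
        rw [mul_sub, mval_succ hn hP.ne_zero, mval_succ hn hP.ne_zero, ← Finset.sum_sub_distrib]
        refine Finset.sum_congr rfl fun i _ => ?_
        split_ifs <;> ring) (fun N i hi hiN => by
        rw [show π * (K * π⁻¹ * δ) = δ * K by field_simp [hπ0]]
        exact hforce hiN (norm_pow_sub_pow_le (hx.norm_le_one hi) (hy.norm_le_one hi)
          (norm_step_le hx hy hδ0 hδ hi) _) (hm y hy _)) N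
    rwa [mval_zero hn, mval_zero hn, sub_self, norm_zero, max_eq_right (by positivity)] at h
  -- second differences
  have key := hK x hx (fun N => mval p n y N - mval p n x N - ∑ c : Fin n, dvec x y c * col p n x N c)
    (fun N i => (y (i + 1) ^ p ^ (N - i) - x (i + 1) ^ p ^ (N - i)) *
        (mval p n y (N - i) - mval p n x (N - i)) +
      (y (i + 1) ^ p ^ (N - i) - x (i + 1) ^ p ^ (N - i) -
        ((p ^ (N - i) : ℕ) : L) * x (i + 1) ^ (p ^ (N - i) - 1) * (y (i + 1) - x (i + 1))) *
        mval p n x (N - i))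
    (K * (K * π⁻¹) * π⁻¹ * δ ^ 2) (by positivity) (fun N => by
      rw [mul_sub, mul_sub, mval_succ hn hP.ne_zero, mval_succ hn hP.ne_zero, Finset.mul_sum]
      simp only [mul_left_comm (p : L), col_succ hP.ne_zero, Finset.mul_sum]
      rw [Finset.sum_comm, ← Finset.sum_sub_distrib, ← Finset.sum_sub_distrib]
      refine Finset.sum_congr rfl fun i _ => ?_
      by_cases hi : i < n
      swap
      · simp [hi]
      simp only [if_pos hi, mul_add, Finset.sum_add_distrib]
      have e : ∀ a : L, (∑ c : Fin n, dvec x y c * if c.val = i + 1 then a else 0) =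
          (y (i + 1) - x (i + 1)) * a := by
        intro a
        rcases eq_or_lt_of_le (Nat.succ_le_of_lt hi) with h | h
        · rw [show i + 1 = n from h, hx.top, hy.top, sub_self, zero_mul]
          exact Finset.sum_eq_zero fun c _ => by simp [(c.isLt).ne]
        · rw [Finset.sum_eq_single (⟨i + 1, h⟩ : Fin n)
            (fun c _ hc => by simp [Fin.val_ne_of_ne hc |> fun h' => (by simpa using h')])
            (by simp)]
          simp [dvec]
      rw [e]
      simp only [mul_left_comm (dvec x y _), ← Finset.mul_sum]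
      push_cast
      ring) (fun N i hi hiN => by
      rw [show π * (K * (K * π⁻¹) * π⁻¹ * δ ^ 2) = K * (K * π⁻¹) * δ ^ 2 by field_simp [hπ0]]
      refine (mul_le_mul_of_nonneg_left (norm_add_le_max _ _) (pow_nonneg hθ0.le _)).trans ?_
      rw [mul_max_of_nonneg _ _ (pow_nonneg hθ0.le _)]
      have hs := norm_step_le hx hy hδ0 hδ hi
      refine max_le ?_ ?_
      · refine (hforce hiN (norm_pow_sub_pow_le (hx.norm_le_one hi) (hy.norm_le_one hi) hs _)
          (hd _)).trans (le_of_eq ?_)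
        ring
      · refine (hforce hiN (norm_pow_sub_linear_le (hx.norm_le_one hi) (hy.norm_le_one hi) hs _)
          (hm x hx _)).trans ?_
        rw [mul_comm]
        exact mul_le_mul_of_nonneg_right
          (le_mul_of_one_le_right hK0 (one_le_mul_of_one_le_of_one_le hK1 hπ1)) (sq_nonneg δ)) N
  refine key.trans ?_
  have h0 : mval p n y 0 - mval p n x 0 - ∑ c : Fin n, dvec x y c * col p n x 0 c = 0 := by
    rw [mval_zero hn, mval_zero hn, sub_self, zero_sub, neg_eq_zero]
    refine Finset.sum_eq_zero fun c _ => ?_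
    rw [dvec, col_zero]
    split_ifs <;> simp
  rw [h0, norm_zero, max_eq_right (by positivity)]
  rw [show K * (K * (K * π⁻¹) * π⁻¹ * δ ^ 2) = K * (K * (K * π⁻¹) * π⁻¹) * δ ^ 2 by ring]
  exact mul_le_mul_of_nonneg_right (le_max_right _ _) (sq_nonneg δ)

end Vale.Agent.P217.Generic
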