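/-
P217, block E: periods of the logarithm coefficients and their derivatives.
-/
import Vale.Agent.P217.Generic.Bounds

noncomputable section

namespace Vale.Agent.P217.Generic

open IsUltrametricDist Filter Topology

set_option linter.unusedSectionVars false

variable (p n : ℕ) [Fact p.Prime] {L : Type} [NormedField L]

/-- `p^k` times column `n k + r`. -/
def perSeq (x : ℕ → L) (r c : Fin n) (k : ℕ) : L := (p : L) ^ k * col p n x (n * k + r) c

/-- The matrix of periods: row `r` is the limit of `p^k` times column `n k + r`. -/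
def periods (x : ℕ → L) : Matrix (Fin n) (Fin n) L :=
  Matrix.of fun r c => limUnder atTop (perSeq p n x r c)

variable {p n}

lemma theta_cancel (hP : PSmall p L) (hn : 1 ≤ n) {a : L} {B : ℝ} (hB : 0 ≤ B) {N k m : ℕ}
    (hN : N ≤ n * k + n * m) (h : theta p n L ^ N * ‖a‖ ≤ B) :
    ‖(p : L) ^ k * a‖ ≤ B * ‖(p : L)‖⁻¹ ^ m := by
  set π := ‖(p : L)‖ with hπ
  set θ := theta p n L with hθ
  have hθ0 : 0 < θ := theta_pos hP
  have hπ0 : 0 < π := hP.pos
  have h1 : π ^ (k + m) ≤ θ ^ N := by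
    rw [hπ, ← theta_pow (L := L) hn, ← pow_mul, mul_add]
    exact pow_le_pow_of_le_one hθ0.le (theta_le_one hP) hN
  rw [norm_mul, norm_pow, inv_pow, ← div_eq_mul_inv, le_div_iff₀ (pow_pos hπ0 m)]
  calc π ^ k * ‖a‖ * π ^ m = π ^ (k + m) * ‖a‖ := by rw [pow_add]; ring
    _ ≤ θ ^ N * ‖a‖ := mul_le_mul_of_nonneg_right h1 (norm_nonneg _)
    _ ≤ B := h

variable [IsUltrametricDist L] [CompleteSpace L]

theorem tendsto_perSeq (hP : PSmall p L) (hn : 1 ≤ n) {ρ : ℝ} {x : ℕ → L} (hx : Small n x ρ)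
    (r c : Fin n) :
    Tendsto (perSeq p n x r c) atTop (𝓝 (periods p n x r c)) := by
  obtain ⟨K, hK1, hK⟩ := exists_bounds hP hn hx.nonneg hx.lt
  obtain ⟨hcol, -⟩ := hK x hx
  set π := ‖(p : L)‖ with hπ
  have hK0 : 0 ≤ K := zero_le_one.trans hK1
  have hstep : ∀ k, dist (perSeq p n x r c k) (perSeq p n x r c (k + 1)) ≤ K * π⁻¹ ^ 2 * ρ ^ k := by
    intro k
    rw [dist_comm, dist_eq_norm, perSeq, perSeq]
    obtain ⟨N, hN, hN'⟩ : ∃ N, n * (k + 1) + r = N + 1 ∧ N - (n - 1) = n * k + r :=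
      ⟨n * k + r + (n - 1), by rw [mul_add, mul_one]; omega, by omega⟩
    rw [hN, pow_succ, mul_assoc, col_succ hP.ne_zero, ← Finset.add_sum_erase _ _
      (Finset.mem_range.2 (show n - 1 < N + 1 by rw [mul_add, mul_one] at hN; omega)),
      if_pos (by omega), show n - 1 + 1 = n by omega, hx.top, one_pow, one_mul, hN',
      if_neg c.isLt.ne, add_zero, mul_add, add_sub_cancel_left, Finset.mul_sum]
    refine norm_sum_le_of_forall_le_of_nonneg (mul_nonneg (by positivity) (pow_nonneg hx.nonneg _))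
      fun i hi => ?_
    obtain ⟨hne, hiN⟩ := Finset.mem_erase.1 hi
    rw [Finset.mem_range, Nat.lt_succ_iff] at hiN
    have hrest : 0 ≤ K * π⁻¹ ^ 2 * ρ ^ k := mul_nonneg (by positivity) (pow_nonneg hx.nonneg _)
    by_cases hin : i < n
    swap
    · simpa [hin] using hrest
    rw [if_pos hin, mul_add]
    set M := N - i with hM
    have hNb : M ≤ n * k + n * 2 := by rw [mul_add, mul_one] at hN; omega
    have hkM : k ≤ p ^ M - 1 := by
      refine le_trans ?_ (Nat.le_sub_one_of_lt (Nat.lt_pow_self (Nat.Prime.one_lt Fact.out)))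
      calc k ≤ n * k := Nat.le_mul_of_pos_left _ hn
        _ ≤ M := by rw [mul_add, mul_one] at hN; omega
    have hxi : ‖x (i + 1)‖ ≤ ρ := hx.small _ (by omega) (by omega)
    have hmain : ∀ (a b : L), theta p n L ^ M * ‖b‖ ≤ K → ‖a‖ ≤ ρ ^ k →
        ‖(p : L) ^ k * (a * b)‖ ≤ K * π⁻¹ ^ 2 * ρ ^ k := by
      intro a b hb ha
      rw [mul_left_comm, norm_mul, mul_comm]
      exact mul_le_mul (theta_cancel hP hn hK0 hNb hb) ha (norm_nonneg _) (by positivity)
    refine (norm_add_le_max _ _).trans (max_le ?_ ?_)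
    · refine hmain _ _ (hcol M c) ?_
      rw [norm_pow]
      exact (pow_le_pow_left₀ (norm_nonneg _) hxi _).trans
        (pow_le_pow_of_le_one hx.nonneg hx.lt.le (by omega))
    · split_ifs
      · refine hmain _ _ ?_ ?_
        · rw [mval, dif_pos (by omega : 0 < n)]
          exact hcol M _
        · rw [norm_mul, norm_pow, norm_pow]
          refine (mul_le_of_le_one_left (pow_nonneg (norm_nonneg _) _)
            (pow_le_one₀ (norm_nonneg _) hP.lt.le)).trans ?_
          exact (pow_le_pow_left₀ (norm_nonneg _) hxi _).trans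
            (pow_le_pow_of_le_one hx.nonneg hx.lt.le hkM)
      · simpa using hrest
  exact (cauchySeq_of_le_geometric ρ (K * π⁻¹ ^ 2) hx.lt hstep).tendsto_limUnder

/-- The period vector. -/
def pvec (p n : ℕ) [Fact p.Prime] (x : ℕ → L) (r : Fin n) : L :=
  if h : 0 < n then periods p n x r ⟨0, h⟩ else 0

/-- Periods are bounded and have a second-order expansion. -/
theorem exists_periods_bounds (hP : PSmall p L) (hn : 1 ≤ n) {ρ : ℝ} (hρ0 : 0 ≤ ρ) (hρ1 : ρ < 1) :
    ∃ K : ℝ, 0 ≤ K ∧ ∀ x : ℕ → L, Small n x ρ →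
      (∀ r c, ‖periods p n x r c‖ ≤ K) ∧
      ∀ y : ℕ → L, Small n y ρ → ∀ δ : ℝ, 0 ≤ δ → (∀ i, 1 ≤ i → i < n → ‖y i - x i‖ ≤ δ) → ∀ r,
        ‖pvec p n y r - pvec p n x r - ∑ c : Fin n, dvec x y c * periods p n x r c‖ ≤ K * δ ^ 2 := by
  obtain ⟨K, hK1, hK⟩ := exists_bounds hP hn hρ0 hρ1
  have hK0 : 0 ≤ K := zero_le_one.trans hK1
  have hr : ∀ (r : Fin n) (k : ℕ), n * k + r ≤ n * k + n * 1 := fun r k => by omega
  refine ⟨K * ‖(p : L)‖⁻¹ ^ 1, by positivity, fun x hx => ⟨fun r c => ?_, fun y hy δ hδ0 hδ r => ?_⟩⟩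
  · exact le_of_tendsto' (tendsto_perSeq hP hn hx r c).norm fun k =>
      theta_cancel hP hn hK0 (hr r k) ((hK x hx).1 _ c)
  · simp only [pvec, dif_pos (by omega : 0 < n)]
    have ht := (((tendsto_perSeq hP hn hy r ⟨0, by omega⟩).sub
      (tendsto_perSeq hP hn hx r ⟨0, by omega⟩)).sub
        (tendsto_finsetSum Finset.univ fun c _ =>
          (tendsto_perSeq hP hn hx r c).const_mul (dvec x y c))).norm
    refine le_of_tendsto' ht fun k => ?_
    have h := theta_cancel (m := 1) hP hn (by positivity) (hr r k)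
      ((hK x hx).2 y hy δ hδ0 hδ (n * k + r))
    simp only [mval, dif_pos (by omega : 0 < n), mul_sub, Finset.mul_sum] at h
    simp only [perSeq, mul_left_comm (dvec x y _)]
    exact h.trans (le_of_eq (by ring))

end Vale.Agent.P217.Generic
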