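/-
P217, block E: congruent series have the same periods.
-/
import Vale.Agent.P217.Generic.Periods
import Vale.Agent.P217.Easy.Series

noncomputable section

namespace Vale.Agent.P217.Generic

open IsUltrametricDist Filter Topology

set_option linter.unusedSectionVars false

variable (p n : ℕ) [Fact p.Prime] {L : Type} [NormedField L]

/-- The logarithm at `x`. -/
def lser (x : ℕ → L) : PowerSeries L :=
  PowerSeries.mk fun b => if p ^ Nat.log p b = b then mval p n x (Nat.log p b) else 0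

variable {p n}

lemma coeff_lser_pow (x : ℕ → L) (N : ℕ) :
    PowerSeries.coeff (p ^ N) (lser p n x) = mval p n x N := by
  rw [lser, PowerSeries.coeff_mk, Nat.log_pow (Nat.Prime.one_lt Fact.out), if_pos rfl]

lemma coeff_lser_eq_zero (x : ℕ → L) {b : ℕ} (hb : ∀ N, p ^ N ≠ b) :
    PowerSeries.coeff b (lser p n x) = 0 := by
  rw [lser, PowerSeries.coeff_mk, if_neg (hb _)]

lemma constantCoeff_lser (x : ℕ → L) : PowerSeries.constantCoeff (lser p n x) = 0 := by
  rw [← PowerSeries.coeff_zero_eq_constantCoeff_apply]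
  exact coeff_lser_eq_zero x fun N => (pow_pos (Nat.Prime.pos Fact.out) N).ne'

lemma coeff_subst_lser (x : ℕ → L) {h : PowerSeries L} (h0 : PowerSeries.constantCoeff h = 0)
    (N : ℕ) :
    PowerSeries.coeff (p ^ N) (PowerSeries.subst h (lser p n x)) =
      ∑ M ∈ Finset.range (N + 1), mval p n x M * PowerSeries.coeff (p ^ N) (h ^ p ^ M) := by
  classical
  rw [Easy.coeff_subst_range h0, ← Finset.sum_subset (s₁ := (Finset.range (N + 1)).image (p ^ ·))]
  · rw [Finset.sum_image fun a _ b _ e => Nat.pow_right_injective (Nat.Prime.two_le Fact.out) e]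
    exact Finset.sum_congr rfl fun M _ => by rw [coeff_lser_pow]
  · intro b hb
    obtain ⟨M, hM, rfl⟩ := Finset.mem_image.1 hb
    rw [Finset.mem_range] at hM ⊢
    exact Nat.lt_succ_of_le (Nat.pow_le_pow_right (Nat.Prime.pos Fact.out) (by omega))
  · intro b hb hb'
    rw [coeff_lser_eq_zero x fun M hM => ?_, zero_mul]
    refine hb' (Finset.mem_image.2 ⟨M, ?_, hM⟩)
    rw [Finset.mem_range] at hb ⊢
    by_contra hcon
    have := Nat.pow_lt_pow_right (Nat.Prime.one_lt Fact.out : 1 < p) (show N < M by omega)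
    omega

/-- All coefficients have norm at most `ε`. -/
def Gauss (ε : ℝ) (f : PowerSeries L) : Prop := ∀ d, ‖PowerSeries.coeff d f‖ ≤ ε

variable [IsUltrametricDist L]

lemma Gauss.mono {ε ε' : ℝ} {f : PowerSeries L} (h : Gauss ε f) (he : ε ≤ ε') : Gauss ε' f :=
  fun d => (h d).trans he

lemma Gauss.nonneg {ε : ℝ} {f : PowerSeries L} (h : Gauss ε f) : 0 ≤ ε :=
  (norm_nonneg _).trans (h 0)

lemma Gauss.add {ε : ℝ} {f g : PowerSeries L} (hf : Gauss ε f) (hg : Gauss ε g) :
    Gauss ε (f + g) := fun d => by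
  rw [map_add]; exact (norm_add_le_max _ _).trans (max_le (hf d) (hg d))

lemma Gauss.mul {a b : ℝ} {f g : PowerSeries L} (hf : Gauss a f) (hg : Gauss b g) :
    Gauss (a * b) (f * g) := fun d => by
  rw [PowerSeries.coeff_mul]
  refine norm_sum_le_of_forall_le_of_nonneg (mul_nonneg hf.nonneg hg.nonneg) fun x _ => ?_
  rw [norm_mul]
  exact mul_le_mul (hf _) (hg _) (norm_nonneg _) hf.nonneg

lemma gauss_one : Gauss 1 (1 : PowerSeries L) := fun d => by
  rw [PowerSeries.coeff_one]; split_ifs <;> simp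

lemma Gauss.pow {a : ℝ} {f : PowerSeries L} (hf : Gauss a f) : ∀ k, Gauss (a ^ k) (f ^ k)
  | 0 => by simpa using gauss_one
  | k + 1 => by rw [pow_succ, pow_succ]; exact (hf.pow k).mul hf

/-- Integral series. -/
def intPS (L : Type) [NormedField L] [IsUltrametricDist L] : Subring (PowerSeries L) where
  carrier := {f | Gauss 1 f}
  mul_mem' hf hg := by simpa using Gauss.mul hf hg
  one_mem' := gauss_one
  add_mem' := Gauss.add
  zero_mem' d := by simp
  neg_mem' {f} hf d := by simpa using hf d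

/-- One step: `p`-th powers of congruent series are more congruent. -/
lemma pow_prime_step {e : ℝ} {a b : PowerSeries L} (ha : a ∈ intPS L) (hb : b ∈ intPS L)
    (h : Gauss e (a - b)) : Gauss (max (‖(p : L)‖ * e) (e ^ p)) (a ^ p - b ^ p) := by
  set B : intPS L := ⟨b, hb⟩
  set D : intPS L := ⟨a - b, sub_mem ha hb⟩
  obtain ⟨r, hr⟩ : ∃ r, (B + D) ^ p = B ^ p + D ^ p + (p : intPS L) * B * D * r :=
    ⟨_, add_pow_prime_eq Fact.out B D⟩
  have hr' := congrArg Subtype.val hr
  simp only [Subring.coe_add, Subring.coe_mul, Subring.coe_pow, B, D] at hr'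
  rw [show a ^ p - b ^ p = (a - b) ^ p + (((p : intPS L) : PowerSeries L) * b * r) * (a - b) by
    rw [show a = b + (a - b) by ring, hr']; ring]
  refine Gauss.add ((h.pow p).mono (le_max_right _ _)) (Gauss.mono ?_ (le_max_left _ _))
  refine Gauss.mul ?_ h
  have hpc : Gauss ‖(p : L)‖ (((p : intPS L) : PowerSeries L)) := fun d => by
    rw [show ((p : intPS L) : PowerSeries L) = PowerSeries.C (p : L) by simp, PowerSeries.coeff_C]
    split_ifs <;> simp
  simpa using (hpc.mul hb).mul r.2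

/-- Iterated `p`-th powers of congruent integral series differ by `O(‖p‖^M)`. -/
theorem exists_pow_bound (hP : PSmall p L) {ε : ℝ} (hε : ε < 1) :
    ∃ B : ℝ, ∀ a b : PowerSeries L, a ∈ intPS L → b ∈ intPS L → Gauss ε (a - b) →
      ∀ M, Gauss (B * ‖(p : L)‖ ^ M) (a ^ p ^ M - b ^ p ^ M) := by
  set π := ‖(p : L)‖ with hπ
  set q := max π ε with hq
  have hq1 : q < 1 := max_lt hP.lt hε
  have hq0 : 0 ≤ q := le_max_of_le_left hP.pos.le
  obtain ⟨M0, hM0⟩ := exists_pow_lt_of_lt_one hP.pos hq1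
  refine ⟨π⁻¹ ^ M0, fun a b ha hb h => ?_⟩
  have hε0 : 0 ≤ ε := h.nonneg
  have hp2 : 2 ≤ p := Nat.Prime.two_le Fact.out
  have step : ∀ M e, e ≤ 1 → Gauss e (a ^ p ^ M - b ^ p ^ M) →
      Gauss (e * max π e) (a ^ p ^ (M + 1) - b ^ p ^ (M + 1)) := by
    intro M e he hg
    rw [pow_succ, pow_mul, pow_mul]
    refine (pow_prime_step (pow_mem ha _) (pow_mem hb _) hg).mono ?_
    rw [mul_max_of_nonneg _ _ hg.nonneg]
    refine max_le_max (mul_comm _ _).le ?_
    rw [← sq]
    exact pow_le_pow_of_le_one hg.nonneg he hp2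
  have h1 : ∀ M, Gauss (q ^ (M + 1)) (a ^ p ^ M - b ^ p ^ M) := by
    intro M
    induction M with
    | zero => simpa using h.mono (le_max_right π ε)
    | succ M ih =>
      refine (step M _ (pow_le_one₀ hq0 hq1.le) ih).mono ?_
      rw [pow_succ q (M + 1)]
      refine mul_le_mul_of_nonneg_left (max_le (le_max_left _ _) ?_) (pow_nonneg hq0 _)
      exact pow_le_of_le_one hq0 hq1.le (by omega)
  intro M
  induction M with
  | zero =>
    refine ((h1 0).mono ?_)
    simpa using hq1.le.trans (one_le_pow₀ ((one_le_inv₀ hP.pos).2 hP.lt.le))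
  | succ M ih =>
    by_cases hM : M + 1 ≤ M0
    · refine (h1 (M + 1)).mono ((pow_le_one₀ hq0 hq1.le).trans ?_)
      rw [inv_pow, ← div_eq_inv_mul, one_le_div (pow_pos hP.pos _)]
      exact pow_le_pow_of_le_one hP.pos.le hP.lt.le hM
    · have hMM : q ^ (M + 1) ≤ π :=
        (pow_le_pow_of_le_one hq0 hq1.le (by omega)).trans hM0.le
      have hmin : Gauss (min (π⁻¹ ^ M0 * π ^ M) (q ^ (M + 1))) (a ^ p ^ M - b ^ p ^ M) :=
        fun d => le_min (ih d) (h1 M d)
      refine (step M _ ((min_le_right _ _).trans (pow_le_one₀ hq0 hq1.le)) hmin).mono ?_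
      rw [pow_succ π M, ← mul_assoc]
      exact mul_le_mul (min_le_left _ _) (max_le le_rfl ((min_le_right _ _).trans hMM))
        (le_max_of_le_left hP.pos.le) (by positivity)

/-- Congruent integral series give the same periods. -/
theorem tendsto_periods_diff (hP : PSmall p L) (hn : 1 ≤ n) {ρ : ℝ} {y : ℕ → L}
    (hy : Small n y ρ) {ε : ℝ} (hε : ε < 1) {h h' : PowerSeries L}
    (h0 : PowerSeries.constantCoeff h = 0) (h0' : PowerSeries.constantCoeff h' = 0)
    (hI : Gauss 1 h) (hI' : Gauss 1 h') (hd : Gauss ε (h - h')) (r : Fin n) :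
    Tendsto (fun k => (p : L) ^ k * (PowerSeries.coeff (p ^ (n * k + r)) (PowerSeries.subst h (lser p n y)) -
      PowerSeries.coeff (p ^ (n * k + r)) (PowerSeries.subst h' (lser p n y)))) atTop (𝓝 0) := by
  obtain ⟨K, hK1, hK⟩ := exists_bounds hP hn hy.nonneg hy.lt
  obtain ⟨B, hB⟩ := exists_pow_bound hP hε
  have hB' := hB h h' hI hI' hd
  have hB0 : 0 ≤ B := by simpa using (hB' 0).nonneg
  have hK0 : 0 ≤ K := zero_le_one.trans hK1
  have hθ0 := theta_pos (n := n) hP
  refine squeeze_zero_norm (a := fun k => ‖(p : L)‖ ^ k * (K * B)) (fun k => ?_) ?_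
  swap
  · simpa using (tendsto_pow_atTop_nhds_zero_of_lt_one hP.pos.le hP.lt).mul_const (K * B)
  rw [norm_mul, norm_pow, coeff_subst_lser y h0, coeff_subst_lser y h0', ← Finset.sum_sub_distrib]
  refine mul_le_mul_of_nonneg_left (norm_sum_le_of_forall_le_of_nonneg (by positivity) fun M _ => ?_)
    (by positivity)
  rw [← mul_sub, ← map_sub, norm_mul]
  refine (mul_le_mul_of_nonneg_left (hB' M _) (norm_nonneg _)).trans ?_
  have hπθ : ‖(p : L)‖ ^ M ≤ theta p n L ^ M := by
    refine pow_le_pow_left₀ (norm_nonneg _) ?_ M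
    rw [← theta_pow (L := L) hn]
    exact pow_le_of_le_one hθ0.le (theta_le_one hP) (by omega)
  have hm : theta p n L ^ M * ‖mval p n y M‖ ≤ K := by
    rw [mval, dif_pos (by omega : 0 < n)]
    exact (hK y hy).1 M _
  calc ‖mval p n y M‖ * (B * ‖(p : L)‖ ^ M) ≤ ‖mval p n y M‖ * (B * theta p n L ^ M) :=
        mul_le_mul_of_nonneg_left (mul_le_mul_of_nonneg_left hπθ hB0) (norm_nonneg _)
    _ = theta p n L ^ M * ‖mval p n y M‖ * B := by ring
    _ ≤ K * B := mul_le_mul_of_nonneg_right hm hB0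

end Vale.Agent.P217.Generic
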