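/-
P217, block E: the universal logarithm at a point, and the logarithm of a homomorphism.
-/
import Vale.Agent.P217.Generic.Asymp
import Vale.Agent.P217.Law.LT

noncomputable section

namespace Vale.Agent.P217.Generic

open MvPowerSeries

set_option linter.unusedSectionVars false

variable (p n : ℕ) [Fact p.Prime] {L : Type} [NormedField L]

/-- The integral numerators `p^N m_N`. -/
def intCoeff : ℕ → LT p n
  | 0 => 1
  | N + 1 => ∑ i : Fin (N + 1), if i.val < n then
      (p : LT p n) ^ i.val * intCoeff (N - i.val) * par p n (i.val + 1) ^ p ^ (N - i.val) else 0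
  decreasing_by all_goals omega

lemma toRat_intCoeff : ∀ N, toRat p n (intCoeff p n N) = (p : RatLT p n) ^ N * logCoeff p n N := by
  intro N
  induction N using Nat.strong_induction_on with
  | _ N ih =>
  match N, ih with
  | 0, _ => rw [intCoeff, logCoeff, map_one, pow_zero, one_mul]
  | N + 1, ih =>
    rw [intCoeff, logCoeff, map_sum, pow_succ, mul_assoc, ← mul_assoc (p : RatLT p n) (invP p n),
      mul_comm (p : RatLT p n) (invP p n), invP_mul, one_mul, Finset.mul_sum]
    refine Finset.sum_congr rfl fun i _ => ?_
    split_ifs with h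
    · obtain ⟨M, hM⟩ : ∃ M, N = i.val + M := ⟨N - i.val, by omega⟩
      rw [map_mul, map_mul, map_pow, map_pow, map_natCast, ih _ (by omega),
        show N - i.val = M by omega,
        show (p : RatLT p n) ^ N = (p : RatLT p n) ^ i.val * (p : RatLT p n) ^ M by rw [← pow_add, ← hM]]
      ring
    · rw [map_zero, mul_zero]

variable {p n}

/-- The coordinates of a point. -/
def Point.xval (e : Point p n L) (i : ℕ) : L := e.ev (par p n i)

lemma Point.natCast_eq (e : Point p n L) : e.ev (p : LT p n) = (p : L) := map_natCast e.ev p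

lemma mem_maximal_of_red {a : LT p n} (h : red p n a = 0) :
    a ∈ IsLocalRing.maximalIdeal (LT p n) := by
  rw [IsLocalRing.mem_maximalIdeal, mem_nonunits_iff]
  intro hu
  exact (hu.map (red p n)).ne_zero h

lemma natCast_mem_maximal : (p : LT p n) ∈ IsLocalRing.maximalIdeal (LT p n) :=
  mem_maximal_of_red (by rw [map_natCast]; exact CharP.cast_eq_zero _ p)

lemma Point.psmall (e : Point p n L) : PSmall p L where
  pos := norm_pos_iff.2 (e.natCast_eq ▸ e.p_ne)
  lt := by
    rw [← e.natCast_eq]
    exact (e.norm_le_rho _ natCast_mem_maximal).trans_lt e.rho_lt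

lemma Point.small (hn : 1 ≤ n) (e : Point p n L) : Small n e.xval e.rho where
  nonneg := (norm_nonneg _).trans (e.norm_le_rho _ natCast_mem_maximal)
  lt := e.rho_lt
  top := by
    have h2 : n ≠ 0 := by omega
    simp [Point.xval, par, h2]
  small i h1 h2 := by
    refine e.norm_le_rho _ (mem_maximal_of_red ?_)
    rw [par, dif_pos ⟨h1, h2⟩]
    simp [red]

variable [IsUltrametricDist L]

lemma Point.ev_intCoeff (hn : 1 ≤ n) (e : Point p n L) :
    ∀ N, e.ev (intCoeff p n N) = (p : L) ^ N * mval p n e.xval N := by
  intro N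
  induction N using Nat.strong_induction_on with
  | _ N ih =>
  match N, ih with
  | 0, _ => rw [intCoeff, map_one, mval_zero hn, pow_zero, one_mul]
  | N + 1, ih =>
    rw [intCoeff, map_sum, pow_succ, mul_assoc, mval_succ hn e.psmall.ne_zero, Finset.mul_sum,
      ← Fin.sum_univ_eq_sum_range (fun i => (p : L) ^ N * if i < n then
        e.xval (i + 1) ^ p ^ (N - i) * mval p n e.xval (N - i) else 0) (N + 1)]
    refine Finset.sum_congr rfl fun i _ => ?_
    split_ifs with h
    · obtain ⟨M, hM⟩ : ∃ M, N = i.val + M := ⟨N - i.val, by omega⟩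
      rw [map_mul, map_mul, map_pow, map_pow, e.natCast_eq, ih _ (by omega),
        show N - i.val = M by omega,
        show (p : L) ^ N = (p : L) ^ i.val * (p : L) ^ M by rw [← pow_add, ← hM], Point.xval]
      ring
    · rw [map_zero, mul_zero]

/-- The law at a point has logarithm `lser`. -/
theorem Point.law (hn : 1 ≤ n) (e : Point p n L) {F : FormalGroup (LT p n)}
    (hF : IsUniversalLaw p n F) :
    PowerSeries.subst (F.map e.ev).toPowerSeries (lser p n e.xval) =
      PowerSeries.subst (X (0 : Fin 2) : MvPowerSeries (Fin 2) L) (lser p n e.xval) +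
        PowerSeries.subst (X (1 : Fin 2) : MvPowerSeries (Fin 2) L) (lser p n e.xval) := by
  let A := Localization.Away (p : LT p n)
  let inc : LT p n →+* A := algebraMap _ _
  let iv : A := IsLocalization.Away.invSelf (p : LT p n)
  have hiv : inc (p : LT p n) * iv = 1 := IsLocalization.Away.mul_invSelf _
  let lA : PowerSeries A := PowerSeries.mk fun b =>
    if p ^ Nat.log p b = b then inc (intCoeff p n (Nat.log p b)) * iv ^ Nat.log p b else 0
  have hlift : ∀ {B : Type} [CommRing B] (ψ : A →+* B) (g : LT p n →+* B), ψ.comp inc = g →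
      ∀ (m : ℕ → B) (N : ℕ), g (intCoeff p n N) = (p : B) ^ N * m N →
        ψ (inc (intCoeff p n N) * iv ^ N) = m N := by
    intro B _ ψ g hg m N hm
    have h1 : (p : B) * ψ iv = 1 := by
      rw [← map_natCast g p, ← hg, RingHom.comp_apply, ← map_mul, hiv, map_one]
    rw [map_mul, map_pow, ← RingHom.comp_apply, hg, hm, mul_right_comm, ← mul_pow, h1, one_pow,
      one_mul]
  have hu : IsUnit (toRat p n (p : LT p n)) := by
    rw [map_natCast]
    exact IsUnit.of_mul_eq_one _ ((mul_comm _ _).trans (invP_mul p n))
  let ψ : A →+* RatLT p n := IsLocalization.Away.lift (p : LT p n) hu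
  have hψ : ψ.comp inc = toRat p n := IsLocalization.Away.lift_comp (p : LT p n) hu
  have hψinj : Function.Injective ψ := by
    refine (injective_iff_map_eq_zero ψ).2 fun a ha => ?_
    obtain ⟨⟨b, s⟩, hbs⟩ := IsLocalization.surj (Submonoid.powers (p : LT p n)) a
    have h1 := congrArg ψ hbs
    rw [map_mul, ha, zero_mul] at h1
    have h2 : toRat p n b = 0 := by rw [← hψ]; exact h1.symm
    rw [← map_zero (toRat p n)] at h2
    rw [toRat_injective p n h2, map_zero] at hbs
    exact (IsUnit.mul_left_eq_zero (IsLocalization.map_units A s)).1 hbs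
  have hue : IsUnit (e.ev (p : LT p n)) := e.p_ne.isUnit
  let χ : A →+* L := IsLocalization.Away.lift (p : LT p n) hue
  have hχ : χ.comp inc = e.ev := IsLocalization.Away.lift_comp (p : LT p n) hue
  have e1 : PowerSeries.map ψ lA = logSeries p n := by
    ext b : 1
    simp only [lA, logSeries, PowerSeries.coeff_map, PowerSeries.coeff_mk]
    split_ifs
    · exact hlift ψ _ hψ _ _ (toRat_intCoeff p n _)
    · exact map_zero ψ
  have e2 : PowerSeries.map χ lA = lser p n e.xval := by
    ext b : 1
    simp only [lA, lser, PowerSeries.coeff_map, PowerSeries.coeff_mk]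
    split_ifs
    · exact hlift χ _ hχ _ _ (e.ev_intCoeff hn _)
    · exact map_zero χ
  have hG0 : PowerSeries.HasSubst (MvPowerSeries.map inc F.toPowerSeries) :=
    PowerSeries.HasSubst.of_constantCoeff_zero
      (by rw [MvPowerSeries.constantCoeff_map, F.zero_constantCoeff, map_zero])
  have key : PowerSeries.subst (MvPowerSeries.map inc F.toPowerSeries) lA =
      PowerSeries.subst (X (0 : Fin 2) : MvPowerSeries (Fin 2) A) lA +
        PowerSeries.subst (X (1 : Fin 2) : MvPowerSeries (Fin 2) A) lA := by
    have hinj : Function.Injective (MvPowerSeries.map (σ := Fin 2) ψ) := fun a b h =>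
      MvPowerSeries.ext fun d => hψinj (by simpa using congrArg (MvPowerSeries.coeff d) h)
    refine hinj ?_
    rw [map_add, PowerSeries.map_subst hG0, PowerSeries.map_subst (PowerSeries.HasSubst.X _),
      PowerSeries.map_subst (PowerSeries.HasSubst.X _), MvPowerSeries.map_X, MvPowerSeries.map_X,
      MvPowerSeries.map_map, hψ, e1]
    exact hF
  have h := congrArg (MvPowerSeries.map χ) key
  rw [map_add, PowerSeries.map_subst hG0, PowerSeries.map_subst (PowerSeries.HasSubst.X _),
    PowerSeries.map_subst (PowerSeries.HasSubst.X _), MvPowerSeries.map_X, MvPowerSeries.map_X,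
    MvPowerSeries.map_map, hχ, e2] at h
  exact h

/-- The image of a homomorphism under a ring map is a homomorphism. -/
lemma isHom_map {R S : Type} [CommRing R] [CommRing S] (g : R →+* S) {A B : FormalGroup R}
    {f : PowerSeries R} (hf : IsHom A B f) : IsHom (A.map g) (B.map g) (PowerSeries.map g f) := by
  obtain ⟨hf0, hf⟩ := hf
  refine ⟨?_, ?_⟩
  · rw [← PowerSeries.coeff_zero_eq_constantCoeff_apply, PowerSeries.coeff_map,
      PowerSeries.coeff_zero_eq_constantCoeff_apply, hf0, map_zero]
  have hA : PowerSeries.HasSubst A.toPowerSeries :=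
    PowerSeries.HasSubst.of_constantCoeff_zero A.zero_constantCoeff
  have h := congrArg (MvPowerSeries.map g) hf
  rw [PowerSeries.map_subst hA, MvPowerSeries.map_subst (hasSubst_of_constantCoeff_zero fun i => by
    fin_cases i <;> exact PowerSeries.constantCoeff_subst_eq_zero (constantCoeff_X _) f hf0)] at h
  refine h.trans (congrArg (fun v => MvPowerSeries.subst v (B.map g).toPowerSeries) ?_)
  funext i
  fin_cases i <;>
    exact (PowerSeries.map_subst (PowerSeries.HasSubst.X _) f).trans (by rw [MvPowerSeries.map_X]; rfl)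

lemma Point.law_pair (hn : 1 ≤ n) (e : Point p n L) {F : FormalGroup (LT p n)}
    (hF : IsUniversalLaw p n F) {σ : Type} {f g : MvPowerSeries σ L} (hf : f.constantCoeff = 0)
    (hg : g.constantCoeff = 0) :
    PowerSeries.subst (MvPowerSeries.subst ![f, g] (F.map e.ev).toPowerSeries) (lser p n e.xval) =
      PowerSeries.subst f (lser p n e.xval) + PowerSeries.subst g (lser p n e.xval) := by
  have hs := Easy.hasSubst_pair hf hg
  have h := congrArg (MvPowerSeries.subst ![f, g]) (e.law hn hF)
  have hG : PowerSeries.HasSubst (F.map e.ev).toPowerSeries :=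
    PowerSeries.HasSubst.of_constantCoeff_zero (F.map e.ev).zero_constantCoeff
  rw [MvPowerSeries.subst_add hs, PowerSeries.subst_def, PowerSeries.subst_def,
    PowerSeries.subst_def, MvPowerSeries.subst_comp_subst_apply hG.const hs,
    MvPowerSeries.subst_comp_subst_apply (PowerSeries.HasSubst.X 0).const hs,
    MvPowerSeries.subst_comp_subst_apply (PowerSeries.HasSubst.X 1).const hs] at h
  simp only [MvPowerSeries.subst_X hs, Matrix.cons_val_zero, Matrix.cons_val_one,
    Matrix.cons_val_fin_one] at h
  exact h

omit [IsUltrametricDist L] in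
/-- A series without linear term that is additive for a formal group vanishes in characteristic zero. -/
theorem eq_zero_of_additive [CharZero L] (G : FormalGroup L) {φ : PowerSeries L}
    (h0 : PowerSeries.constantCoeff φ = 0) (h1 : PowerSeries.coeff 1 φ = 0)
    (h : PowerSeries.subst G.toPowerSeries φ =
      PowerSeries.subst (X (0 : Fin 2) : MvPowerSeries (Fin 2) L) φ +
        PowerSeries.subst (X (1 : Fin 2) : MvPowerSeries (Fin 2) L) φ) : φ = 0 := by
  classical
  have hG : PowerSeries.HasSubst G.toPowerSeries :=
    PowerSeries.HasSubst.of_constantCoeff_zero G.zero_constantCoeff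
  ext d
  induction d using Nat.strong_induction_on with
  | _ d ih =>
  rw [map_zero]
  rcases Nat.lt_or_ge d 2 with hd | hd
  · interval_cases d
    · rw [PowerSeries.coeff_zero_eq_constantCoeff_apply]; exact h0
    · exact h1
  set e : Fin 2 →₀ ℕ := Finsupp.single 0 1 + Finsupp.single 1 (d - 1) with he
  have hdeg : e.degree = d := by
    rw [he, map_add, Finsupp.degree_single, Finsupp.degree_single]; omega
  have hX : ∀ i : Fin 2, coeff e (PowerSeries.subst (X i : MvPowerSeries (Fin 2) L) φ) = 0 := by
    intro i
    rw [PowerSeries.coeff_subst (PowerSeries.HasSubst.X i)]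
    refine finsum_eq_zero_of_forall_eq_zero fun b => ?_
    rw [MvPowerSeries.coeff_X_pow, if_neg, smul_zero]
    intro hb
    fin_cases i
    · have := congrArg (fun v => v 1) hb
      simp [he] at this
      omega
    · have := congrArg (fun v => v 0) hb
      simp [he] at this
  have hl := congrArg (coeff e) h
  rw [map_add, hX, hX, add_zero, PowerSeries.coeff_subst hG, finsum_eq_single _ d] at hl
  swap
  · intro b hb
    rcases Nat.lt_or_ge b d with hlt | hge
    · rw [ih b hlt, map_zero, zero_smul]
    · rw [coeff_of_lt_order, smul_zero]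
      refine lt_of_lt_of_le ?_ (MvPowerSeries.le_order_pow (n := b))
      refine lt_of_lt_of_le ?_ (nsmul_le_nsmul_right
        (MvPowerSeries.one_le_order_iff_constCoeff_eq_zero.2 G.zero_constantCoeff) b)
      rw [nsmul_one, hdeg]
      exact_mod_cast lt_of_le_of_ne hge (Ne.symm hb)
  have hc : coeff e (G.toPowerSeries ^ d) = (d : L) := by
    obtain ⟨R, hR, hR2⟩ : ∃ R : MvPowerSeries (Fin 2) L,
        G.toPowerSeries = (X 0 + X 1) + R ∧ (2 : ℕ∞) ≤ R.order := by
      refine ⟨G.toPowerSeries - (X 0 + X 1), by ring, MvPowerSeries.nat_le_order fun v hv => ?_⟩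
      rw [map_sub, map_add, MvPowerSeries.coeff_X, MvPowerSeries.coeff_X]
      have hv2 : v.degree < 2 := by exact_mod_cast hv
      rcases Nat.lt_or_ge v.degree 1 with hv1 | hv1
      · have : v = 0 := (Finsupp.degree_eq_zero_iff v).1 (by omega)
        simp [this, G.zero_constantCoeff, eq_comm (a := (0 : Fin 2 →₀ ℕ))]
      · obtain ⟨i, rfl⟩ : ∃ i, Finsupp.single i 1 = v :=
          Finsupp.range_single_one.symm.le (show v.degree = 1 by omega)
        fin_cases i <;> simp [G.lin_coeff_X, G.lin_coeff_Y, Finsupp.single_left_inj]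
    rw [hR, add_pow, map_sum, Finset.sum_eq_single d]
    · rw [Nat.sub_self, pow_zero, mul_one, Nat.choose_self, Nat.cast_one, mul_one, add_pow,
        map_sum, Finset.sum_eq_single 1]
      · rw [pow_one, ← nsmul_eq_mul', map_nsmul, X, X_pow_eq, monomial_mul_monomial,
          coeff_monomial, if_pos he, mul_one, Nat.choose_one_right, nsmul_eq_mul, mul_one]
      · intro a _ ha
        rw [← nsmul_eq_mul', map_nsmul, X_pow_eq, X_pow_eq, monomial_mul_monomial,
          coeff_monomial, if_neg, smul_zero]
        intro hb
        have := congrArg (fun v => v 0) hb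
        simp [he] at this
        exact ha this.symm
      · intro hn
        exact absurd (Finset.mem_range.2 (by omega)) hn
    · intro a ha had
      rw [coeff_of_lt_order]
      rw [Finset.mem_range] at ha
      have hX1 : (1 : ℕ∞) ≤ ((X 0 + X 1 : MvPowerSeries (Fin 2) L)).order :=
        MvPowerSeries.one_le_order_iff_constCoeff_eq_zero.2 (by simp)
      have h1' : (a : ℕ∞) ≤ ((X 0 + X 1 : MvPowerSeries (Fin 2) L) ^ a).order :=
        le_trans (by simpa using nsmul_le_nsmul_right hX1 a) (MvPowerSeries.le_order_pow (n := a))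
      have h2' : ((2 * (d - a) : ℕ) : ℕ∞) ≤ (R ^ (d - a)).order := by
        refine le_trans ?_ (MvPowerSeries.le_order_pow (n := d - a))
        refine le_trans (le_of_eq ?_) (nsmul_le_nsmul_right hR2 _)
        push_cast [nsmul_eq_mul]
        ring
      refine lt_of_lt_of_le ?_ (le_trans le_self_add MvPowerSeries.le_order_mul)
      refine lt_of_lt_of_le ?_ ((add_le_add h1' h2').trans MvPowerSeries.le_order_mul)
      rw [hdeg]
      exact_mod_cast (by omega : d < a + 2 * (d - a))
    · simp
  rw [hc, smul_eq_mul, mul_eq_zero] at hl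
  exact hl.resolve_right (Nat.cast_ne_zero.2 (by omega))

end Vale.Agent.P217.Generic
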