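/-
P217, block E: a prime away from `p` stable under the partial derivatives is zero.
-/
import Vale.Agent.P217.Generic.Defs
import Vale.Agent.P217.ContLimit

noncomputable section

namespace Vale.Agent.P217.Generic

open MvPowerSeries

variable {p n : ℕ} [Fact p.Prime]

theorem natCast_witt_ne_zero {N : ℕ} (hN : N ≠ 0) : (N : WittVector p (Res p n)) ≠ 0 := by
  have hp : p.Prime := Fact.out
  obtain ⟨v, u, hu, rfl⟩ := Nat.exists_eq_pow_mul_and_not_dvd hN p hp.ne_one
  rw [Nat.cast_mul, Nat.cast_pow]
  refine mul_ne_zero (pow_ne_zero _ (WittVector.p_nonzero p _)) fun h => hu ?_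
  have h1 := congrArg WittVector.constantCoeff h
  rw [map_natCast, map_zero] at h1
  exact (CharP.cast_eq_zero_iff (Res p n) p u).1 h1

theorem C_notMem {P : Ideal (LT p n)} [hP : P.IsPrime] (hp : (p : LT p n) ∉ P)
    {w : WittVector p (Res p n)} (hw : w ≠ 0) : C w ∉ P := by
  obtain ⟨v, b, rfl⟩ := WittVector.exists_eq_pow_p_mul' w hw
  rw [map_mul, map_pow, map_natCast]
  exact hP.mul_notMem (fun h => hp (hP.mem_of_pow_mem _ h))
    fun h => hP.ne_top (Ideal.eq_top_of_isUnit_mem _ h (b.isUnit.map _))

/-- The divided derivative. -/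
def divDeriv (i : Fin (n - 1)) (j : ℕ) (f : LT p n) : LT p n := fun d =>
  ((d i + j).choose j : WittVector p (Res p n)) * coeff (d + Finsupp.single i j) f

theorem coeff_divDeriv (i : Fin (n - 1)) (j : ℕ) (f : LT p n) (d : Fin (n - 1) →₀ ℕ) :
    coeff d (divDeriv i j f) =
      ((d i + j).choose j : WittVector p (Res p n)) * coeff (d + Finsupp.single i j) f := rfl

variable {P : Ideal (LT p n)} [hP : P.IsPrime]

theorem divDeriv_mem (hp : (p : LT p n) ∉ P) (h : ∀ f ∈ P, ∀ i, pderiv _ i f ∈ P) {f : LT p n}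
    (hf : f ∈ P) (i : Fin (n - 1)) (j : ℕ) : divDeriv i j f ∈ P := by
  induction j with
  | zero =>
    convert hf using 1
    refine MvPowerSeries.ext fun d => ?_
    simp [coeff_divDeriv]
  | succ j ih =>
    have he : C ((j + 1 : ℕ) : WittVector p (Res p n)) * divDeriv i (j + 1) f =
        pderiv _ i (divDeriv i j f) := by
      refine MvPowerSeries.ext fun d => ?_
      have hd : d + Finsupp.single i 1 + Finsupp.single i j = d + Finsupp.single i (j + 1) := by
        rw [add_assoc, ← Finsupp.single_add, add_comm 1 j]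
      have hi : (d + Finsupp.single i 1 : Fin (n - 1) →₀ ℕ) i = d i + 1 := by simp
      have hb := Nat.choose_succ_right_eq (d i + 1 + j) j
      rw [show d i + 1 + j - j = d i + 1 by omega] at hb
      have hb' := congrArg (Nat.cast (R := WittVector p (Res p n))) hb
      push_cast at hb'
      rw [coeff_C_mul, coeff_divDeriv, coeff_pderiv, coeff_divDeriv, hd, hi,
        show d i + (j + 1) = d i + 1 + j by omega]
      push_cast
      linear_combination (coeff (R := WittVector p (Res p n)) (d + Finsupp.single i (j + 1)) f) * hb'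
    exact (hP.mem_or_mem (he ▸ h _ ih i)).resolve_left
      (C_notMem hp (natCast_witt_ne_zero j.succ_ne_zero))

/-- The monomials avoiding the variables of `s`. -/
def kill (s : Finset (Fin (n - 1))) (f : LT p n) : LT p n := fun d =>
  if ∀ i ∈ s, d i = 0 then coeff d f else 0

theorem coeff_kill (s : Finset (Fin (n - 1))) (f : LT p n) (d : Fin (n - 1) →₀ ℕ) :
    coeff d (kill s f) = if ∀ i ∈ s, d i = 0 then coeff d f else 0 := rfl

theorem mem_of_forall_mem_sup {x : LT p n}
    (hx : ∀ k, x ∈ P ⊔ IsLocalRing.maximalIdeal (LT p n) ^ k) : x ∈ P := by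
  have : Nontrivial (LT p n ⧸ P) := Ideal.Quotient.nontrivial_iff.mpr hP.ne_top
  set m := IsLocalRing.maximalIdeal (LT p n)
  have hle : m.map (Ideal.Quotient.mk P) ≠ ⊤ := by
    intro htop
    have h1 := congrArg (Ideal.comap (Ideal.Quotient.mk P)) htop
    rw [Ideal.comap_map_of_surjective _ Ideal.Quotient.mk_surjective, Ideal.comap_top,
      ← RingHom.ker_eq_comap_bot, Ideal.mk_ker,
      sup_eq_left.2 (IsLocalRing.le_maximalIdeal hP.ne_top)] at h1
    exact (IsLocalRing.maximalIdeal.isMaximal (LT p n)).ne_top h1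
  have hbot := Ideal.iInf_pow_eq_bot_of_isDomain (m.map (Ideal.Quotient.mk P)) hle
  have hmem : Ideal.Quotient.mk P x ∈ ⨅ k : ℕ, m.map (Ideal.Quotient.mk P) ^ k := by
    refine (Submodule.mem_iInf _).2 fun k => ?_
    rw [← Ideal.map_pow]
    have h1 := Ideal.mem_map_of_mem (Ideal.Quotient.mk P) (hx k)
    rwa [Ideal.map_sup, Ideal.map_quotient_self, bot_sup_eq] at h1
  rw [hbot] at hmem
  exact Ideal.Quotient.eq_zero_iff_mem.1 hmem

theorem kill_single_mem (hp : (p : LT p n) ∉ P) (h : ∀ f ∈ P, ∀ i, pderiv _ i f ∈ P) {f : LT p n}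
    (hf : f ∈ P) (i : Fin (n - 1)) : kill {i} f ∈ P := by
  classical
  refine mem_of_forall_mem_sup fun k => ?_
  let a : LT p n := ∑ j ∈ Finset.range (k + 1), (-X i) ^ j * divDeriv i j f
  have ha : a ∈ P := Ideal.sum_mem _ fun j _ => Ideal.mul_mem_left _ _ (divDeriv_mem hp h hf i j)
  have hlow : ∀ d : Fin (n - 1) →₀ ℕ, d i ≤ k → coeff d (kill {i} f - a) = 0 := by
    intro d hd
    have hterm : ∀ j ∈ Finset.range (k + 1), coeff d ((-X i) ^ j * divDeriv i j f) =
        if j ≤ d i then ((-1 : ℤ) ^ j * (d i).choose j : ℤ) * coeff d f else 0 := by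
      intro j _
      rw [neg_pow, X_pow_eq, mul_assoc, show ((-1 : LT p n) ^ j) = C ((-1) ^ j) by simp,
        coeff_C_mul, coeff_monomial_mul, one_mul]
      by_cases hj : j ≤ d i
      · have hle : Finsupp.single i j ≤ d := Finsupp.single_le_iff.2 hj
        have hi : (d - Finsupp.single i j : Fin (n - 1) →₀ ℕ) i + j = d i := by
          simp; omega
        rw [if_pos hj, if_pos hle, coeff_divDeriv, tsub_add_cancel_of_le hle, hi]
        push_cast
        ring
      · rw [if_neg hj, if_neg fun hle => hj (Finsupp.single_le_iff.1 hle), mul_zero]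
    rw [map_sub, map_sum, Finset.sum_congr rfl hterm, coeff_kill, ← Finset.sum_filter,
      show (Finset.range (k + 1)).filter (fun j => j ≤ d i) = Finset.range (d i + 1) by
        ext j; simp; omega,
      ← Finset.sum_mul, ← Int.cast_sum, Int.alternating_sum_range_choose]
    by_cases h0 : d i = 0 <;> simp [h0]
  rw [show kill {i} f = a + (kill {i} f - a) by ring]
  refine add_mem (Ideal.mem_sup_left ha) (Ideal.mem_sup_right ?_)
  refine Ideal.pow_le_pow_right (Nat.le_succ k) (Ideal.pow_right_mono Cont.span_X_le (k + 1)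
    (mem_span_X_pow_of_coeff_eq_zero (k + 1) _ fun d hd => hlow d ?_))
  have := Finsupp.le_degree i d
  omega

theorem constantCoeff_eq_zero (hp : (p : LT p n) ∉ P) (h : ∀ f ∈ P, ∀ i, pderiv _ i f ∈ P)
    {f : LT p n} (hf : f ∈ P) : constantCoeff f = 0 := by
  classical
  have key : ∀ s : Finset (Fin (n - 1)), kill s f ∈ P := by
    intro s
    induction s using Finset.induction_on with
    | empty => convert hf using 1; refine MvPowerSeries.ext fun d => ?_; simp [coeff_kill]
    | @insert i s _ ih =>
      convert kill_single_mem hp h ih i using 1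
      refine MvPowerSeries.ext fun d => ?_
      simp only [coeff_kill, Finset.forall_mem_insert, Finset.mem_singleton, forall_eq, ite_and]
  have hC : kill Finset.univ f = C (constantCoeff f) := by
    refine MvPowerSeries.ext fun d => ?_
    simp only [coeff_kill, Finset.mem_univ, true_imp_iff, coeff_C]
    by_cases hd : d = 0
    · subst hd; simp
    · rw [if_neg fun h0 : ∀ i, d i = 0 => hd (Finsupp.ext h0), if_neg hd]
  by_contra h0
  exact C_notMem hp h0 (hC ▸ key Finset.univ)

/-- A prime away from `p` stable under the partial derivatives is zero. -/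
theorem eq_bot_of_pderiv_stable (P : Ideal (LT p n)) [P.IsPrime] (hp : par p n 0 ∉ P)
    (h : ∀ f ∈ P, ∀ i, pderiv _ i f ∈ P) : P = ⊥ := by
  rw [show par p n 0 = (p : LT p n) by simp [par]] at hp
  suffices key : ∀ k, ∀ f ∈ P, ∀ d : Fin (n - 1) →₀ ℕ, d.degree = k → coeff d f = 0 from
    eq_bot_iff.2 fun f hf =>
      (Submodule.mem_bot (LT p n)).2 (MvPowerSeries.ext fun d => by simpa using key _ f hf d rfl)
  intro k
  induction k with
  | zero =>
    intro f hf d hd
    rw [(Finsupp.degree_eq_zero_iff d).1 hd, coeff_zero_eq_constantCoeff_apply]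
    exact constantCoeff_eq_zero hp h hf
  | succ k ih =>
    intro f hf d hd
    obtain ⟨i, hi⟩ : ∃ i, d i ≠ 0 := by
      by_contra hc
      push Not at hc
      rw [show d = 0 from Finsupp.ext hc] at hd
      simp at hd
    have hle : Finsupp.single i 1 ≤ d := Finsupp.single_le_iff.2 (Nat.one_le_iff_ne_zero.2 hi)
    have hdeg : (d - Finsupp.single i 1).degree = k := by
      have h2 := congrArg Finsupp.degree (tsub_add_cancel_of_le hle)
      rw [map_add, Finsupp.degree_single] at h2
      omega
    have h1 := ih _ (h f hf i) _ hdeg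
    rw [coeff_pderiv, tsub_add_cancel_of_le hle] at h1
    refine (mul_eq_zero.1 h1).resolve_right ?_
    rw [← Nat.cast_add_one]
    exact natCast_witt_ne_zero (Nat.succ_ne_zero _)

end Vale.Agent.P217.Generic
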