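/-
P217, block E: the periods under a deep stabilizer element.
-/
import Vale.Agent.P217.Generic.LogHom
import Vale.Agent.P217.Generic.Stable
import Vale.Agent.P217.Orbit.HomAdd

noncomputable section

namespace Vale.Agent.P217.Generic

open MvPowerSeries Filter Topology

set_option linter.unusedSectionVars false

variable {p n : ℕ} [Fact p.Prime] {L : Type} [NormedField L]

lemma red_surjective : Function.Surjective (red p n) := fun c =>
  ⟨C (WittVector.teichmuller p c), by
    simp [red, WittVector.teichmuller_coeff_zero, WittVector.constantCoeff_apply]⟩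

lemma maximal_eq_ker : IsLocalRing.maximalIdeal (LT p n) = RingHom.ker (red p n) :=
  (IsLocalRing.eq_maximalIdeal (RingHom.ker_isMaximal_of_surjective (red p n) (red_surjective (p := p) (n := n)))).symm

lemma red_endo_eq (φ : LT p n →ₐ[WittVector p (Res p n)] LT p n) (a : LT p n) :
    red p n (φ a) = red p n a := by
  set t : LT p n := algebraMap (WittVector p (Res p n)) (LT p n)
    (WittVector.teichmuller p (red p n a)) with ht
  have hta : red p n t = red p n a := by
    simp [ht, red, MvPowerSeries.algebraMap_apply, WittVector.teichmuller_coeff_zero,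
      WittVector.constantCoeff_apply]
  have hd : a - t ∈ IsLocalRing.maximalIdeal (LT p n) := by
    rw [maximal_eq_ker, RingHom.mem_ker, map_sub, hta, sub_self]
  have h := Cont.map_mem (φ := φ) (k := 1) (by rwa [pow_one])
  rw [pow_one, maximal_eq_ker, RingHom.mem_ker, map_sub, map_sub, ht, AlgHom.commutes, ← ht, hta,
    sub_eq_zero] at h
  exact h

lemma red_comp_endo (φ : LT p n →ₐ[WittVector p (Res p n)] LT p n) :
    (red p n).comp φ.toRingHom = red p n :=
  RingHom.ext (red_endo_eq φ)

/-- The point moved by an endomorphism. -/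
def Point.comp (e : Point p n L) (φ : LT p n →ₐ[WittVector p (Res p n)] LT p n) : Point p n L where
  ev := e.ev.comp φ.toRingHom
  rho := e.rho
  rho_lt := e.rho_lt
  norm_le_one a := e.norm_le_one _
  norm_le_rho a ha := e.norm_le_rho _ (by
    have h := Cont.map_mem (φ := φ) (k := 1) (by rwa [pow_one])
    rwa [pow_one] at h)
  p_ne := by
    rw [RingHom.comp_apply, map_natCast]
    exact e.p_ne

lemma Point.charZero (e : Point p n L) : CharZero L := by
  refine charZero_of_inj_zero fun N hN => ?_
  by_contra h0
  have hker : (RingHom.ker e.ev).IsPrime := RingHom.ker_isPrime _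
  have h := C_notMem (P := RingHom.ker e.ev) (fun h => e.p_ne (RingHom.mem_ker.1 h))
    (natCast_witt_ne_zero (n := n) h0)
  rw [RingHom.mem_ker, map_natCast, map_natCast] at h
  exact h hN

/-- The twisted shift of a period vector. -/
def shift (p : ℕ) (b : L) (i : Fin n) (w : Fin n → L) (r : Fin n) : L :=
  if i.val ≤ r.val then b ^ p ^ (r.val - i.val) * w ⟨r.val - i.val, by omega⟩
  else if h : r.val + n - i.val < n then
    (p : L) * b ^ p ^ (r.val + n - i.val) * w ⟨r.val + n - i.val, h⟩ else 0

lemma teich_pow_card (hn : 1 ≤ n) (α : Res p n) (k : ℕ) :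
    WittVector.teichmuller p α ^ p ^ (n * k) = WittVector.teichmuller p α := by
  induction k with
  | zero => simp
  | succ k ih =>
    rw [mul_add, mul_one, pow_add, pow_mul, ih, ← map_pow]
    congr 1
    have hc : Nat.card (Res p n) = p ^ n := GaloisField.card p n (by omega)
    have := Fintype.ofFinite (Res p n)
    rw [← hc, Nat.card_eq_fintype_card]
    exact FiniteField.pow_card α

variable [IsUltrametricDist L]

lemma gauss_map (e : Point p n L) (f : PowerSeries (LT p n)) : Gauss 1 (PowerSeries.map e.ev f) :=
  fun d => by rw [PowerSeries.coeff_map]; exact e.norm_le_one _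

/-- The logarithm of a homomorphism is a multiple of the logarithm. -/
theorem log_hom (hn : 1 ≤ n) (e : Point p n L) {F : FormalGroup (LT p n)}
    (hF : IsUniversalLaw p n F) {φ : LT p n →ₐ[WittVector p (Res p n)] LT p n}
    {f : PowerSeries (LT p n)} (hf : IsHom F (F.map φ.toRingHom) f) :
    PowerSeries.subst (PowerSeries.map e.ev f) (lser p n (e.comp φ).xval) =
      PowerSeries.C (e.ev (PowerSeries.coeff 1 f)) * lser p n e.xval := by
  have := e.charZero
  obtain ⟨h0, hh⟩ := isHom_map e.ev hf
  set h := PowerSeries.map e.ev f with hh'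
  set G := F.map e.ev with hG
  have hB : (F.map φ.toRingHom).map e.ev = F.map (e.comp φ).ev := by
    refine FormalGroup.ext ?_
    simp only [FormalGroup.map_toPowerSeries, MvPowerSeries.map_map]
    rfl
  rw [hB] at hh
  have hs : PowerSeries.HasSubst h := PowerSeries.HasSubst.of_constantCoeff_zero' h0
  have hGs : PowerSeries.HasSubst G.toPowerSeries :=
    PowerSeries.HasSubst.of_constantCoeff_zero G.zero_constantCoeff
  have hcX : ∀ i : Fin 2, constantCoeff (PowerSeries.subst (X i : MvPowerSeries (Fin 2) L) h) = 0 :=
    fun i => PowerSeries.constantCoeff_subst_eq_zero (constantCoeff_X i) h h0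
  set lx := lser p n e.xval
  set ly := lser p n (e.comp φ).xval
  have hcomp : ∀ a : MvPowerSeries (Fin 2) L, PowerSeries.HasSubst a →
      PowerSeries.subst a (PowerSeries.subst h ly) = PowerSeries.subst (PowerSeries.subst a h) ly :=
    fun a ha => PowerSeries.subst_comp_subst_apply hs ha ly
  set c := e.ev (PowerSeries.coeff 1 f)
  have hmul : ∀ a : MvPowerSeries (Fin 2) L, PowerSeries.HasSubst a →
      PowerSeries.subst a (PowerSeries.subst h ly - PowerSeries.C c * lx) =
        PowerSeries.subst (PowerSeries.subst a h) ly - C c * PowerSeries.subst a lx := by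
    intro a ha
    rw [← PowerSeries.coe_substAlgHom ha, map_sub, map_mul, PowerSeries.coe_substAlgHom ha, hcomp a ha,
      PowerSeries.subst_C]
  rw [← sub_eq_zero]
  refine eq_zero_of_additive G ?_ ?_ ?_
  · rw [map_sub, map_mul, constantCoeff_lser, mul_zero, sub_zero]
    exact PowerSeries.constantCoeff_subst_eq_zero h0 _ (constantCoeff_lser _)
  · rw [map_sub, PowerSeries.coeff_C_mul, Easy.coeff_subst_range h0, Finset.sum_range_succ,
      Finset.sum_range_one, PowerSeries.coeff_zero_eq_constantCoeff_apply, constantCoeff_lser,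
      zero_mul, zero_add, pow_one, ← pow_zero p, coeff_lser_pow, coeff_lser_pow, mval_zero hn,
      mval_zero hn, one_mul, mul_one, pow_zero, hh', PowerSeries.coeff_map, sub_self]
  · rw [hmul _ hGs, hmul _ (PowerSeries.HasSubst.X 0), hmul _ (PowerSeries.HasSubst.X 1), hh,
      (e.comp φ).law_pair hn hF (hcX 0) (hcX 1), e.law hn hF]
    ring

lemma coeff_subst_monomial (y : ℕ → L) (b : L) (M N : ℕ) :
    PowerSeries.coeff (p ^ N) (PowerSeries.subst (PowerSeries.C b * PowerSeries.X ^ p ^ M) (lser p n y)) =
      if M ≤ N then mval p n y (N - M) * b ^ p ^ (N - M) else 0 := by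
  have h0 : PowerSeries.constantCoeff (PowerSeries.C b * PowerSeries.X ^ p ^ M : PowerSeries L) = 0 := by
    simp [(Fact.out : p.Prime).ne_zero]
  rw [coeff_subst_lser y h0]
  have hterm : ∀ K, PowerSeries.coeff (p ^ N)
      ((PowerSeries.C b * PowerSeries.X ^ p ^ M : PowerSeries L) ^ p ^ K) =
        if N = M + K then b ^ p ^ K else 0 := by
    intro K
    rw [mul_pow, ← map_pow, ← pow_mul, PowerSeries.coeff_C_mul, PowerSeries.coeff_X_pow, ← pow_add]
    simp [Nat.pow_right_inj (Nat.Prime.two_le Fact.out : 2 ≤ p)]
  simp only [hterm]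
  split_ifs with h
  · rw [Finset.sum_eq_single (N - M)]
    · rw [if_pos (by omega)]
    · intro K _ hK; rw [if_neg (by omega), mul_zero]
    · intro hK; exact absurd (Finset.mem_range.2 (by omega)) hK
  · exact Finset.sum_eq_zero fun K _ => by rw [if_neg (by omega), mul_zero]

variable [CompleteSpace L]

/-- The relation between the periods at a point and at its image. -/
theorem period_relation (hn : 1 ≤ n) (e : Point p n L) {F : FormalGroup (LT p n)}
    (hF : IsUniversalLaw p n F) {φ : LT p n →ₐ[WittVector p (Res p n)] LT p n}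
    {f : PowerSeries (LT p n)} (hhom : IsHom F (F.map φ.toRingHom) f) (α : Res p n) (t : ℕ)
    (i : Fin n)
    (hf : PowerSeries.map (red p n) f = serAdd (special p n F) PowerSeries.X
      (PowerSeries.C α * PowerSeries.X ^ p ^ (n * t + i.val)))
    (r : Fin n) :
    e.ev (PowerSeries.coeff 1 f) * pvec p n e.xval r = pvec p n (e.comp φ).xval r +
      (p : L) ^ t * shift p (e.ev (C (WittVector.teichmuller p α))) i
        (pvec p n (e.comp φ).xval) r := by
  set e' := e.comp φ with he'
  set y := e'.xval
  set M := n * t + i.val with hMdef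
  set b := e.ev (C (WittVector.teichmuller p α)) with hb
  set c := e.ev (PowerSeries.coeff 1 f)
  have hy : Small n y e'.rho := e'.small hn
  have hx : Small n e.xval e.rho := e.small hn
  have hP := e.psmall
  -- the model lift
  set m0 : PowerSeries (LT p n) :=
    PowerSeries.C (C (WittVector.teichmuller p α)) * PowerSeries.X ^ p ^ M
  have hm00 : PowerSeries.constantCoeff m0 = 0 := by
    simp [m0, (Fact.out : p.Prime).ne_zero]
  set g := serAdd (F.map φ.toRingHom) PowerSeries.X m0 with hg
  have hg0 : PowerSeries.constantCoeff g = 0 :=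
    constantCoeff_serAdd _ PowerSeries.constantCoeff_X hm00
  have hredg : PowerSeries.map (red p n) g = PowerSeries.map (red p n) f := by
    rw [hf, hg, serAdd, serAdd]
    refine (MvPowerSeries.map_subst (Easy.hasSubst_pair PowerSeries.constantCoeff_X hm00)
      (f := (F.map φ.toRingHom).toPowerSeries)).trans ?_
    rw [FormalGroup.map_toPowerSeries, MvPowerSeries.map_map, red_comp_endo]
    congr 1
    funext j
    fin_cases j
    · exact PowerSeries.map_X _
    · show PowerSeries.map (red p n) m0 = _
      simp [m0, red, WittVector.teichmuller_coeff_zero, WittVector.constantCoeff_apply]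
  have hε : Gauss e.rho (PowerSeries.map e.ev f - PowerSeries.map e.ev g) := fun d => by
    rw [map_sub, PowerSeries.coeff_map, PowerSeries.coeff_map, ← map_sub]
    refine e.norm_le_rho _ ?_
    rw [maximal_eq_ker, RingHom.mem_ker, map_sub, ← PowerSeries.coeff_map, ← PowerSeries.coeff_map,
      hredg, sub_self]
  have hc0 : ∀ a : PowerSeries (LT p n), PowerSeries.constantCoeff a = 0 →
      PowerSeries.constantCoeff (PowerSeries.map e.ev a) = 0 := fun a ha => by
    rw [← PowerSeries.coeff_zero_eq_constantCoeff_apply, PowerSeries.coeff_map,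
      PowerSeries.coeff_zero_eq_constantCoeff_apply, ha, map_zero]
  have hgL : PowerSeries.map e.ev g = MvPowerSeries.subst
      ![(PowerSeries.X : PowerSeries L), PowerSeries.C b * PowerSeries.X ^ p ^ M]
      (F.map e'.ev).toPowerSeries := by
    rw [hg, serAdd]
    refine (MvPowerSeries.map_subst (Easy.hasSubst_pair PowerSeries.constantCoeff_X hm00)
      (f := (F.map φ.toRingHom).toPowerSeries)).trans ?_
    rw [FormalGroup.map_toPowerSeries, FormalGroup.map_toPowerSeries, MvPowerSeries.map_map]
    congr 1
    funext j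
    fin_cases j
    · exact PowerSeries.map_X _
    · show PowerSeries.map e.ev m0 = _
      simp [m0, hb]
  have hlim := tendsto_periods_diff hP hn hy e.rho_lt (hc0 f hhom.1) (hc0 g hg0) (gauss_map e f)
    (gauss_map e g) hε r
  have h1X : PowerSeries.constantCoeff (PowerSeries.C b * PowerSeries.X ^ p ^ M : PowerSeries L) = 0 := by
    simp [(Fact.out : p.Prime).ne_zero]
  rw [log_hom hn e hF hhom, hgL, e'.law_pair hn hF PowerSeries.constantCoeff_X h1X] at hlim
  -- the three sequences
  have e1 : ∀ k, (p : L) ^ k * mval p n e.xval (n * k + r) = perSeq p n e.xval r ⟨0, hn⟩ k :=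
    fun k => by rw [perSeq, mval, dif_pos (by omega : 0 < n)]
  have e2 : ∀ k, (p : L) ^ k * mval p n y (n * k + r) = perSeq p n y r ⟨0, hn⟩ k :=
    fun k => by rw [perSeq, mval, dif_pos (by omega : 0 < n)]
  have hbk : ∀ k m : ℕ, b ^ p ^ (n * k + m) = b ^ p ^ m := fun k m => by
    rw [pow_add, pow_mul, hb, ← map_pow e.ev (C (WittVector.teichmuller p α)) (p ^ (n * k)),
      ← map_pow C, teich_pow_card hn α k]
  have t1 := ((tendsto_perSeq hP hn hx r ⟨0, hn⟩).const_mul c)
  have t2 := tendsto_perSeq hP hn hy r ⟨0, hn⟩
  have t3 : Tendsto (fun k => (p : L) ^ (k + (t + 1)) *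
      (if M ≤ n * (k + (t + 1)) + r then mval p n y (n * (k + (t + 1)) + r - M) *
        b ^ p ^ (n * (k + (t + 1)) + r - M) else 0)) atTop
      (𝓝 ((p : L) ^ t * shift p b i (pvec p n y) r)) := by
    have hle : ∀ k, M ≤ n * (k + (t + 1)) + r := fun k => by
      rw [hMdef, mul_add, mul_add, mul_one]; omega
    simp only [if_pos (hle _), shift]
    split_ifs with hir h
    · simp only [pvec, dif_pos (by omega : 0 < n)]
      set r' : Fin n := ⟨r.val - i.val, by omega⟩
      have tt := ((tendsto_perSeq hP hn hy r' ⟨0, hn⟩).comp (tendsto_add_atTop_nat 1)).const_mul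
        ((p : L) ^ t * b ^ p ^ r'.val)
      convert tt using 1
      · funext k
        have hidx : n * (k + (t + 1)) + r - M = n * (k + 1) + r'.val := by
          simp only [hMdef, r', mul_add, mul_one]; omega
        rw [hidx, hbk, Function.comp_apply, perSeq, mval, dif_pos (by omega : 0 < n)]
        ring
      · congr 1; ring
    · simp only [pvec, dif_pos (by omega : 0 < n)]
      set r' : Fin n := ⟨r.val + n - i.val, h⟩
      have tt := (tendsto_perSeq hP hn hy r' ⟨0, hn⟩).const_mul
        ((p : L) ^ (t + 1) * b ^ p ^ r'.val)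
      convert tt using 1
      · funext k
        have hidx : n * (k + (t + 1)) + r - M = n * k + r'.val := by
          simp only [hMdef, r', mul_add, mul_one]; omega
        rw [hidx, hbk, perSeq, mval, dif_pos (by omega : 0 < n)]
        ring
      · congr 1; rw [pow_succ]; ring
    · exact absurd (by omega) h
  have h2 := ((t1.comp (tendsto_add_atTop_nat (t + 1))).sub
    ((t2.comp (tendsto_add_atTop_nat (t + 1))).add t3))
  have h3 := hlim.comp (tendsto_add_atTop_nat (t + 1))
  have hlimeq := tendsto_nhds_unique h2 (h3.congr fun k => by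
    simp only [Function.comp_apply, map_add, PowerSeries.coeff_C_mul, ← e1, ← e2, coeff_lser_pow,
      coeff_subst_monomial]
    rw [PowerSeries.X_subst, coeff_lser_pow]
    ring)
  rw [sub_eq_zero] at hlimeq
  simp only [pvec, dif_pos (by omega : 0 < n)] at hlimeq ⊢
  exact hlimeq

end Vale.Agent.P217.Generic
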