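/-
P217, block E: enough points of the generic fibre.
-/
import Vale.Agent.P217.Generic.Defs
import Vale.Agent.P217.SpecField

noncomputable section

namespace Vale.Agent.P217.Generic

/-- In a Noetherian local domain all of whose nonzero primes contain the nonzero element `t`, the
maximal ideal is minimal over every nonzero element of it. -/
theorem maximal_mem_minimalPrimes {A : Type} [CommRing A] [IsDomain A] [IsNoetherianRing A]
    [IsLocalRing A] {t : A} (ht : t ≠ 0)
    (hall : ∀ q : Ideal A, q.IsPrime → q ≠ ⊥ → t ∈ q) {s : A} (hs : s ≠ 0)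
    (hsm : s ∈ IsLocalRing.maximalIdeal A) :
    IsLocalRing.maximalIdeal A ∈ (Ideal.span {s}).minimalPrimes := by
  classical
  set m := IsLocalRing.maximalIdeal A
  have hmp : m.IsPrime := (IsLocalRing.maximalIdeal.isMaximal A).isPrime
  have htm : t ∈ m := hall m hmp fun h => hs (by simpa [h] using hsm)
  -- a prime containing `t` is maximal
  have key : ∀ q : Ideal A, q.IsPrime → t ∈ q → q = m := by
    by_contra hcon
    push Not at hcon
    obtain ⟨q, hq, htq, hqm⟩ := hcon
    let fs : Finset (Ideal A) :=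
      (Ideal.finite_minimalPrimes_of_isNoetherianRing A (Ideal.span {t})).toFinset
    have hnot : ¬ (m : Set A) ⊆ ⋃ i ∈ (fs : Set (Ideal A)), (i : Set A) := by
      intro hsub
      obtain ⟨i, hi, hmi⟩ := (Ideal.subset_union_prime (s := fs) (f := fun i => i) ⊥ ⊥
        fun i hi _ _ => ((Set.Finite.mem_toFinset _).1 hi).1.1).1 hsub
      have hi' := (Set.Finite.mem_toFinset _).1 hi
      have him : i = m := le_antisymm (IsLocalRing.le_maximalIdeal hi'.1.1.ne_top) hmi
      subst him
      exact hqm (le_antisymm (IsLocalRing.le_maximalIdeal hq.ne_top)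
        (hi'.2 ⟨hq, (Ideal.span_singleton_le_iff_mem _).2 htq⟩ (IsLocalRing.le_maximalIdeal hq.ne_top)))
    obtain ⟨b, hbm, hb⟩ := Set.not_subset.1 hnot
    have hb0 : b ≠ 0 := by
      intro h0
      apply hb
      obtain ⟨i, hi, -⟩ := Ideal.exists_minimalPrimes_le
        (show Ideal.span {t} ≤ q from (Ideal.span_singleton_le_iff_mem _).2 htq)
      exact Set.mem_iUnion₂.2 ⟨i, (Set.Finite.mem_toFinset _).2 hi, h0 ▸ i.zero_mem⟩
    obtain ⟨r, hr, -⟩ := Ideal.exists_minimalPrimes_le
      (show Ideal.span {b} ≤ m from (Ideal.span_singleton_le_iff_mem _).2 hbm)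
    have hrp := hr.1.1
    have hbr : b ∈ r := hr.1.2 (Ideal.mem_span_singleton_self b)
    have htr : t ∈ r := hall r hrp fun h => hb0 (by simpa [h] using hbr)
    obtain ⟨i, hi, hir⟩ := Ideal.exists_minimalPrimes_le
      (show Ideal.span {t} ≤ r from (Ideal.span_singleton_le_iff_mem _).2 htr)
    have hne : i ≠ r := fun h =>
      hb (Set.mem_iUnion₂.2 ⟨i, (Set.Finite.mem_toFinset _).2 hi, h ▸ hbr⟩)
    have := hi.1.1
    have := hr.1.1
    have h1 := Ideal.height_strict_mono_of_isPrime_of_isPrime (lt_of_le_of_ne hir hne)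
    have h2 := Ideal.height_le_one_of_isPrincipal_of_mem_minimalPrimes _ _ hr
    have h3 : i.height = 0 := Order.lt_one_iff.1 (lt_of_lt_of_le h1 h2)
    have hti : t ∈ i := hi.1.2 (Ideal.mem_span_singleton_self t)
    rw [Ideal.height_eq_zero_iff_eq_bot.1 h3, Ideal.mem_bot] at hti
    exact ht hti
  refine ⟨⟨hmp, (Ideal.span_singleton_le_iff_mem _).2 hsm⟩, fun q hq _ => ?_⟩
  rw [key q hq.1 (hall q hq.1 fun h => hs ?_)]
  simpa [h] using hq.2 (Ideal.mem_span_singleton_self s)

variable {p n : ℕ} [Fact p.Prime]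

/-- A function not in a prime away from `p` is nonzero at some point of the generic fibre on it. -/
theorem exists_point (hR : RankOneStatement) (_hn : 1 ≤ n) (P : Ideal (LT p n)) [hP : P.IsPrime]
    (hp : par p n 0 ∉ P) {g : LT p n} (hg : g ∉ P) :
    ∃ (L : Type) (_ : NormedField L) (_ : IsUltrametricDist L) (_ : CompleteSpace L)
      (e : Point p n L), (∀ a ∈ P, e.ev a = 0) ∧ e.ev g ≠ 0 := by
  classical
  have hp0 : par p n 0 = (p : LT p n) := by simp [par]
  rw [hp0] at hp
  set t := (p : LT p n) * g with ht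
  have hdisj : Disjoint (P : Set (LT p n)) (Submonoid.powers t : Set (LT p n)) := by
    rw [Set.disjoint_left]
    rintro a ha ⟨k, rfl⟩
    exact hP.mul_notMem hp hg (hP.mem_of_pow_mem k ha)
  obtain ⟨Q, ⟨hPQ, hQd⟩, hQmax⟩ := set_has_maximal_iff_noetherian.2 inferInstance
    {I : Ideal (LT p n) | P ≤ I ∧
      Disjoint (I : Set (LT p n)) (Submonoid.powers t : Set (LT p n))} ⟨P, le_rfl, hdisj⟩
  have hQp : Ideal.IsPrime Q := Ideal.isPrime_of_maximally_disjoint Q (Submonoid.powers t) hQd
    fun J hJ hd => hQmax J ⟨hPQ.trans hJ.le, hd⟩ hJ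
  let A := LT p n ⧸ Q
  have : Nontrivial A := Ideal.Quotient.nontrivial_iff.2 hQp.ne_top
  have : IsLocalRing A := IsLocalRing.of_surjective' (Ideal.Quotient.mk Q) Ideal.Quotient.mk_surjective
  have htQ : t ∉ Q := fun h => Set.disjoint_left.1 hQd h (Submonoid.mem_powers t)
  have ht0 : Ideal.Quotient.mk Q t ≠ 0 := fun h => htQ (Ideal.Quotient.eq_zero_iff_mem.1 h)
  have hall : ∀ q : Ideal A, q.IsPrime → q ≠ ⊥ → Ideal.Quotient.mk Q t ∈ q := by
    intro q hq hne
    have hQq : Q ≤ q.comap (Ideal.Quotient.mk Q) := fun a ha => by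
      rw [Ideal.mem_comap, Ideal.Quotient.eq_zero_iff_mem.2 ha]
      exact q.zero_mem
    have hlt : Q < q.comap (Ideal.Quotient.mk Q) := by
      refine lt_of_le_of_ne hQq fun h => hne ?_
      rw [← Ideal.map_comap_of_surjective _ Ideal.Quotient.mk_surjective q, ← h,
        Ideal.map_quotient_self]
    have hnd : ¬ Disjoint ((q.comap (Ideal.Quotient.mk Q) : Ideal (LT p n)) : Set (LT p n))
        (Submonoid.powers t : Set (LT p n)) := fun hd => hQmax _ ⟨hPQ.trans hQq, hd⟩ hlt
    obtain ⟨a, ha, k, rfl⟩ := Set.not_disjoint_iff.1 hnd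
    exact (hq.comap _).mem_of_pow_mem k ha
  have hpA : Ideal.Quotient.mk Q (p : LT p n) ≠ 0 := fun h => ht0 (by rw [ht, map_mul, h, zero_mul])
  have hpm : (p : LT p n) ∈ IsLocalRing.maximalIdeal (LT p n) := by
    rw [IsLocalRing.mem_maximalIdeal, mem_nonunits_iff, MvPowerSeries.isUnit_iff_constantCoeff,
      map_natCast]
    intro h
    have h1 := h.map (WittVector.constantCoeff : WittVector p (Res p n) →+* Res p n)
    rw [map_natCast, CharP.cast_eq_zero] at h1
    exact not_isUnit_zero h1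
  have hmax : ∀ a ∈ IsLocalRing.maximalIdeal (LT p n),
      Ideal.Quotient.mk Q a ∈ IsLocalRing.maximalIdeal A := by
    intro a ha
    rw [IsLocalRing.mem_maximalIdeal, mem_nonunits_iff] at ha ⊢
    intro hu
    obtain ⟨b, hb⟩ := Ideal.Quotient.mk_surjective (hu.unit⁻¹ : Aˣ).1
    have h1 : a * b - 1 ∈ Q := by
      rw [← Ideal.Quotient.eq_zero_iff_mem, map_sub, map_mul, hb, map_one, IsUnit.mul_val_inv,
        sub_self]
    have h2 : a * b - 1 ∈ IsLocalRing.maximalIdeal (LT p n) := IsLocalRing.le_maximalIdeal hQp.ne_top h1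
    have h3 : a * b ∈ IsLocalRing.maximalIdeal (LT p n) :=
      Ideal.mul_mem_right _ _ ((IsLocalRing.mem_maximalIdeal a).2 ha)
    exact (IsLocalRing.maximalIdeal.isMaximal (LT p n)).ne_top
      ((Ideal.eq_top_iff_one _).2 (by simpa using sub_mem h3 h2))
  obtain ⟨K, _, _, x, hu, -, hinj, hle, hlt⟩ := hR A _ _ hpA
    (maximal_mem_minimalPrimes ht0 hall hpA (hmax _ hpm))
  obtain ⟨s, hs⟩ := (IsNoetherian.noetherian (IsLocalRing.maximalIdeal (LT p n)))
  let N : LT p n → ℝ := fun a => ‖x (Ideal.Quotient.mk Q a)‖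
  let ρ := (insert (0 : LT p n) s).sup' (Finset.insert_nonempty _ _) N
  have hρ0 : 0 ≤ ρ := le_trans (norm_nonneg _)
    (Finset.le_sup' N (Finset.mem_insert_self (0 : LT p n) s))
  refine ⟨K, ‹_›, hu, ‹_›, ⟨x.comp (Ideal.Quotient.mk Q), ρ, ?_, fun a => hle _, ?_, ?_⟩, ?_, ?_⟩
  · refine (Finset.sup'_lt_iff _).2 fun a ha => (hlt _).2 (hmax _ ?_)
    rcases Finset.mem_insert.1 ha with rfl | ha
    · exact zero_mem _
    · exact hs ▸ Submodule.subset_span ha
  · intro a ha
    rw [← hs] at ha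
    induction ha using Submodule.span_induction with
    | mem a ha => exact Finset.le_sup' N (Finset.mem_insert_of_mem ha)
    | zero => simpa using hρ0
    | add a b _ _ iha ihb =>
      rw [map_add]
      exact (IsUltrametricDist.norm_add_le_max _ _).trans (max_le iha ihb)
    | smul r a _ iha =>
      rw [smul_eq_mul, map_mul, norm_mul]
      exact (mul_le_of_le_one_left (norm_nonneg _) (hle _)).trans iha
  · rw [RingHom.comp_apply]
    exact fun h => hpA (hinj (h.trans (map_zero x).symm))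
  · intro a ha
    show x (Ideal.Quotient.mk Q a) = 0
    rw [Ideal.Quotient.eq_zero_iff_mem.2 (hPQ ha), map_zero]
  · intro h
    refine ht0 ?_
    rw [ht, map_mul, hinj (show x (Ideal.Quotient.mk Q g) = x 0 by rw [map_zero]; exact h),
      mul_zero]

end Vale.Agent.P217.Generic
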