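/-
P217, block E: the period matrix is invertible.
-/
import Vale.Agent.P217.Generic.Periods

noncomputable section

namespace Vale.Agent.P217.Generic

open IsUltrametricDist Filter Topology Matrix

set_option linter.unusedSectionVars false

variable {p n : ℕ} [Fact p.Prime] {L : Type} [NormedField L]

/-- The coordinate vectors, extended by zero. -/
def unitVec (m : ℕ) : Fin n → L := fun c => if c.val = m then 1 else 0

/-- The window of columns: row `r` is the last column `≤ N` congruent to `r` modulo `n`,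
or a coordinate vector if there is none. -/
def win (hn : 0 < n) (p : ℕ) [Fact p.Prime] (x : ℕ → L) : ℕ → Matrix (Fin n) (Fin n) L
  | 0 => Matrix.of fun r => unitVec r.val
  | N + 1 => (win hn p x N).updateRow ⟨(N + 1) % n, Nat.mod_lt _ hn⟩ (col p n x (N + 1))

lemma col_zero_eq (x : ℕ → L) : col p n x 0 = unitVec 0 := funext fun c => col_zero x c

lemma win_eq_unit (hn : 0 < n) (x : ℕ → L) :
    ∀ (N : ℕ) (r : Fin n), N < r → win hn p x N r = unitVec r.val
  | 0, r, _ => rfl
  | N + 1, r, h => by
    rw [win, updateRow_ne, win_eq_unit hn x N r (by omega)]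
    intro he
    have := congrArg Fin.val he
    simp only at this
    rw [Nat.mod_eq_of_lt (by omega)] at this
    omega

lemma win_eq_col (hn : 0 < n) (x : ℕ → L) :
    ∀ N j, j ≤ N → N < j + n → win hn p x N ⟨j % n, Nat.mod_lt _ hn⟩ = col p n x j
  | 0, j, h, _ => by
    obtain rfl := Nat.le_zero.1 h
    rw [col_zero_eq]
    funext c
    simp [win, unitVec]
  | N + 1, j, h, h' => by
    rw [win]
    rcases Nat.lt_or_eq_of_le h with hlt | rfl
    · rw [updateRow_ne, win_eq_col hn x N j (by omega) (by omega)]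
      intro he
      have h0 := Nat.sub_mod_eq_zero_of_mod_eq (congrArg Fin.val he).symm
      rw [Nat.mod_eq_of_lt (show N + 1 - j < n by omega)] at h0
      omega
    · rw [updateRow_self]

lemma det_one_updateRow (i : Fin n) (v : Fin n → L) :
    ((1 : Matrix (Fin n) (Fin n) L).updateRow i v).det = v i := by
  have h := det_updateRow_sum (1 : Matrix (Fin n) (Fin n) L) i v
  rw [det_one, smul_eq_mul, mul_one] at h
  rwa [show (∑ k, v k • (1 : Matrix (Fin n) (Fin n) L) k) = v from
    funext fun c => by simp [Finset.sum_apply, Matrix.one_apply]] at h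

lemma col_succ_vec (hp : (p : L) ≠ 0) (x : ℕ → L) (N : ℕ) :
    (p : L) • col p n x (N + 1) = ∑ i ∈ Finset.range (N + 1), if i < n then
      x (i + 1) ^ p ^ (N - i) • col p n x (N - i) +
        ((p : L) ^ (N - i) * x (i + 1) ^ (p ^ (N - i) - 1) * mval p n x (N - i)) • unitVec (i + 1)
      else 0 := by
  funext c
  rw [Pi.smul_apply, smul_eq_mul, col_succ hp, Finset.sum_apply]
  refine Finset.sum_congr rfl fun i _ => ?_
  split_ifs with h1 h2 <;> simp [unitVec, *]

lemma det_update_rec (hp : (p : L) ≠ 0) (x : ℕ → L) (N : ℕ) (M : Matrix (Fin n) (Fin n) L)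
    (r : Fin n) :
    (p : L) * (M.updateRow r (col p n x (N + 1))).det = ∑ i ∈ Finset.range (N + 1), if i < n then
      x (i + 1) ^ p ^ (N - i) * (M.updateRow r (col p n x (N - i))).det +
        (p : L) ^ (N - i) * x (i + 1) ^ (p ^ (N - i) - 1) * mval p n x (N - i) *
          (M.updateRow r (unitVec (i + 1))).det
      else 0 := by
  let T : (Fin n → L) →ₗ[L] L :=
    { toFun := fun v => (M.updateRow r v).det
      map_add' := fun u v => det_updateRow_add M r u v
      map_smul' := fun s u => det_updateRow_smul M r s u }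
  have h := congrArg T (col_succ_vec hp x N)
  rw [map_smul, map_sum, smul_eq_mul] at h
  refine h.trans (Finset.sum_congr rfl fun i _ => ?_)
  split_ifs with hi
  · rw [map_add, map_smul, map_smul]
    rfl
  · exact map_zero T

/-- Rows allowed in a minor at stage `N`. -/
def rowSet (p n : ℕ) [Fact p.Prime] (x : ℕ → L) (N : ℕ) : Set (Fin n → L) :=
  Set.range unitVec ∪ col p n x '' {j | j ≤ N ∧ N < j + n}

variable [IsUltrametricDist L]

lemma norm_det_le_one {A : Matrix (Fin n) (Fin n) L} (h : ∀ r c, ‖A r c‖ ≤ 1) : ‖A.det‖ ≤ 1 := by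
  rw [det_apply]
  refine norm_sum_le_of_forall_le_of_nonneg zero_le_one fun σ _ => ?_
  have e : ‖∏ i, A (σ i) i‖ ≤ 1 := by
    rw [norm_prod]
    exact Finset.prod_le_one (fun i _ => norm_nonneg _) fun i _ => h _ _
  rcases Int.units_eq_one_or (Equiv.Perm.sign σ) with hs | hs <;>
    simpa [hs, Units.neg_smul] using e

/-- Every minor at stage `N` has denominator at most `p^N`. -/
theorem minor_le (hP : PSmall p L) (hn : 1 ≤ n) {ρ : ℝ} {x : ℕ → L} (hx : Small n x ρ) :
    ∀ (N : ℕ) (f : Matrix (Fin n) (Fin n) L), (∀ r, f r ∈ rowSet p n x N) →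
      ‖(p : L)‖ ^ N * ‖f.det‖ ≤ 1 := by
  classical
  intro N
  induction N using Nat.strong_induction_on with
  | _ N ih =>
  intro f hf
  have hunit : ∀ m c, ‖(unitVec m : Fin n → L) c‖ ≤ 1 := fun m c => by
    unfold unitVec; split_ifs <;> simp
  match N, ih, hf with
  | 0, _, hf =>
    rw [pow_zero, one_mul]
    refine norm_det_le_one fun r c => ?_
    rcases hf r with ⟨m, hm⟩ | ⟨j, ⟨hj, -⟩, hj'⟩
    · rw [← hm]; exact hunit m c
    · rw [← hj', Nat.le_zero.1 hj, col_zero_eq]; exact hunit 0 c
  | N + 1, ih, hf =>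
    have hmono : ∀ v ∈ rowSet p n x (N + 1), v ≠ col p n x (N + 1) → v ∈ rowSet p n x N := by
      rintro v (hv | ⟨j, ⟨hj, hj2⟩, rfl⟩) hne
      · exact Or.inl hv
      · exact Or.inr ⟨j, ⟨Nat.le_of_lt_succ (lt_of_le_of_ne hj fun e => hne (by rw [e])),
          by omega⟩, rfl⟩
    have hπ1 : ‖(p : L)‖ ≤ 1 := hP.lt.le
    by_cases hnone : ∀ r, f r ≠ col p n x (N + 1)
    · refine le_trans ?_ (ih N (by omega) f fun r => hmono _ (hf r) (hnone r))
      exact mul_le_mul_of_nonneg_right (pow_le_pow_of_le_one (norm_nonneg _) hπ1 (by omega))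
        (norm_nonneg _)
    push Not at hnone
    obtain ⟨r, hr⟩ := hnone
    by_cases hdup : ∃ r', r' ≠ r ∧ f r' = col p n x (N + 1)
    · obtain ⟨r', hne, hr'⟩ := hdup
      simp [det_zero_of_row_eq hne (hr'.trans hr.symm)]
    push Not at hdup
    have hsub : ∀ v ∈ rowSet p n x N, ‖(p : L)‖ ^ N * ‖(f.updateRow r v).det‖ ≤ 1 := by
      refine fun v hv => ih N (by omega) _ fun r' => ?_
      rcases eq_or_ne r' r with rfl | hne
      · rwa [updateRow_self]
      · rw [updateRow_ne hne]; exact hmono _ (hf r') (hdup r' hne)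
    have hm : ∀ M ≤ N, ‖(p : L)‖ ^ M * ‖mval p n x M‖ ≤ 1 := by
      intro M hM
      have h := ih M (by omega) ((1 : Matrix (Fin n) (Fin n) L).updateRow ⟨0, hn⟩ (col p n x M))
        fun r' => ?_
      · rw [det_one_updateRow] at h
        rw [mval, dif_pos (by omega : 0 < n)]
        exact h
      · rcases eq_or_ne r' ⟨0, hn⟩ with rfl | hne
        · rw [updateRow_self]; exact Or.inr ⟨M, ⟨le_rfl, by omega⟩, rfl⟩
        · rw [updateRow_ne hne]
          exact Or.inl ⟨r', funext fun c => by simp [unitVec, Matrix.one_apply, Fin.ext_iff, eq_comm]⟩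
    rw [← updateRow_eq_self f r, hr, pow_succ, mul_assoc, ← norm_mul,
      det_update_rec hP.ne_zero, ← norm_pow, ← norm_mul, Finset.mul_sum]
    refine norm_sum_le_of_forall_le_of_nonneg zero_le_one fun i hi => ?_
    rw [Finset.mem_range, Nat.lt_succ_iff] at hi
    by_cases hin : i < n
    swap
    · simp [hin]
    rw [if_pos hin, mul_add, mul_left_comm, mul_left_comm ((p : L) ^ N)]
    refine (norm_add_le_max _ _).trans (max_le ?_ ?_)
    · rw [norm_mul, norm_mul, norm_pow (p : L)]
      refine mul_le_one₀ ?_ (by positivity)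
        (hsub _ (Or.inr ⟨N - i, ⟨Nat.sub_le _ _, by omega⟩, rfl⟩))
      rw [norm_pow]
      exact pow_le_one₀ (norm_nonneg _) (hx.norm_le_one hin)
    · rw [norm_mul, norm_mul ((p : L) ^ N), norm_pow (p : L)]
      refine mul_le_one₀ ?_ (by positivity) (hsub _ (Or.inl ⟨i + 1, rfl⟩))
      rw [mul_right_comm, norm_mul, norm_mul, norm_pow, norm_pow]
      exact mul_le_one₀ (hm _ (Nat.sub_le _ _)) (by positivity)
        (pow_le_one₀ (norm_nonneg _) (hx.norm_le_one hin))

lemma win_mem (hn : 0 < n) (x : ℕ → L) (N : ℕ) (r : Fin n) :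
    win hn p x N r ∈ rowSet p n x N := by
  by_cases h : N < r
  · rw [win_eq_unit hn x N r h]; exact Or.inl ⟨_, rfl⟩
  · set j := N - (N - r) % n with hj
    have hlt := Nat.mod_lt (N - r) hn
    have hjr : j % n = r := by
      have e : j = r + n * ((N - r) / n) := by
        have := Nat.mod_add_div (N - r) n
        omega
      rw [e, Nat.add_mul_mod_self_left, Nat.mod_eq_of_lt r.isLt]
    have := win_eq_col (p := p) hn x N j (Nat.sub_le _ _) (by omega)
    rw [show (⟨j % n, Nat.mod_lt _ hn⟩ : Fin n) = r from Fin.ext hjr] at this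
    exact this ▸ Or.inr ⟨j, ⟨Nat.sub_le _ _, by omega⟩, rfl⟩

/-- The window determinant has exact norm `‖p‖^{-N}`. -/
theorem norm_det_win (hP : PSmall p L) (hn : 1 ≤ n) {ρ : ℝ} {x : ℕ → L} (hx : Small n x ρ) :
    ∀ N, ‖(p : L)‖ ^ N * ‖(win hn p x N).det‖ = 1
  | 0 => by
    have : (win hn p x 0) = 1 := by
      ext r c
      simp [win, unitVec, Matrix.one_apply, Fin.ext_iff, eq_comm]
    simp [this]
  | N + 1 => by
    have ih := norm_det_win hP hn hx N
    set π := ‖(p : L)‖ with hπ
    set W := win hn p x N with hW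
    set r : Fin n := ⟨(N + 1) % n, Nat.mod_lt _ hn⟩ with hr
    have hrow : ∀ v, W r = v → (W.updateRow r v).det = W.det := fun v hv => by
      rw [← hv, updateRow_eq_self]
    have hdup : ∀ j, j ≤ N → N < j + n → j % n ≠ (N + 1) % n →
        (W.updateRow r (col p n x j)).det = 0 := by
      intro j h1 h2 h3
      have hne : (⟨j % n, Nat.mod_lt _ hn⟩ : Fin n) ≠ r := fun e => h3 (congrArg Fin.val e)
      refine det_zero_of_row_eq hne ?_
      rw [updateRow_self, updateRow_ne hne, hW, win_eq_col hn x N j h1 h2]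
    have hmod : ∀ i ≤ N, i + 1 < n → (N - i) % n ≠ (N + 1) % n := fun i hi hin e => by
      have := Nat.sub_mod_eq_zero_of_mod_eq e.symm
      rw [show N + 1 - (N - i) = i + 1 by omega, Nat.mod_eq_of_lt hin] at this
      omega
    have hmin : ∀ v ∈ rowSet p n x N, π ^ N * ‖(W.updateRow r v).det‖ ≤ 1 := by
      refine fun v hv => minor_le hP hn hx N _ fun r' => ?_
      rcases eq_or_ne r' r with rfl | hne
      · rwa [updateRow_self]
      · rw [updateRow_ne hne]; exact win_mem hn x N r'
    -- the main index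
    set i₀ := min N (n - 1) with hi₀
    set T : ℕ → L := fun i => if i < n then
      x (i + 1) ^ p ^ (N - i) * (W.updateRow r (col p n x (N - i))).det +
        (p : L) ^ (N - i) * x (i + 1) ^ (p ^ (N - i) - 1) * mval p n x (N - i) *
          (W.updateRow r (unitVec (i + 1))).det else 0 with hT
    have hmain : T i₀ = W.det := by
      simp only [hT, if_pos (show i₀ < n by omega)]
      by_cases hN : N + 1 < n
      · have h0 : i₀ = N := by omega
        rw [h0, Nat.sub_self, hdup 0 (Nat.zero_le _) (by omega)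
            (by rw [Nat.zero_mod, Nat.mod_eq_of_lt hN]; omega),
          hrow _ (by
            rw [hW, win_eq_unit hn x N r (by simp [hr, Nat.mod_eq_of_lt hN])]
            simp [hr, Nat.mod_eq_of_lt hN])]
        simp [mval_zero hn]
      · have h0 : i₀ + 1 = n := by omega
        have hz : (W.updateRow r (unitVec (i₀ + 1))).det = 0 := by
          refine det_eq_zero_of_row_eq_zero r fun c => ?_
          rw [updateRow_self]
          simp [unitVec, h0, c.isLt.ne]
        rw [hz, mul_zero, add_zero, h0, hx.top, one_pow, one_mul]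
        refine hrow _ ?_
        have := win_eq_col (p := p) hn x N (N - i₀) (Nat.sub_le _ _) (by omega)
        rw [hW, ← this]
        refine congrArg (win hn p x N) (Fin.ext ?_)
        simp only [hr]
        rw [show N + 1 = (N - i₀) + n by omega, Nat.add_mod_right]
    have hsmall : ∀ i, i ≤ N → i ≠ i₀ → π ^ N * ‖T i‖ ≤ ρ := by
      intro i hi hne
      simp only [hT]
      by_cases hin : i < n
      swap
      · simp [hin, hx.nonneg]
      have hi1 : i + 1 < n := by omega
      rw [if_pos hin, hdup _ (Nat.sub_le _ _) (by omega) (hmod i hi hi1), mul_zero, zero_add]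
      have hm := minor_le hP hn hx (N - i)
        ((1 : Matrix (Fin n) (Fin n) L).updateRow ⟨0, hn⟩ (col p n x (N - i))) fun r' => by
          rcases eq_or_ne r' ⟨0, hn⟩ with rfl | hne'
          · rw [updateRow_self]; exact Or.inr ⟨N - i, ⟨le_rfl, by omega⟩, rfl⟩
          · rw [updateRow_ne hne']
            exact Or.inl ⟨r', funext fun c => by simp [unitVec, Matrix.one_apply, Fin.ext_iff, eq_comm]⟩
      rw [det_one_updateRow] at hm
      simp only [mval, dif_pos (by omega : 0 < n)]
      rw [norm_mul, norm_mul, norm_mul, norm_pow, norm_pow]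
      have hq : 1 ≤ p ^ (N - i) - 1 :=
        Nat.le_sub_one_of_lt (Nat.one_lt_pow (by omega) (Nat.Prime.one_lt Fact.out))
      calc π ^ N * (π ^ (N - i) * ‖x (i + 1)‖ ^ (p ^ (N - i) - 1) * ‖col p n x (N - i) ⟨0, _⟩‖ *
            ‖(W.updateRow r (unitVec (i + 1))).det‖)
          = ‖x (i + 1)‖ ^ (p ^ (N - i) - 1) * (π ^ (N - i) * ‖col p n x (N - i) ⟨0, _⟩‖) *
              (π ^ N * ‖(W.updateRow r (unitVec (i + 1))).det‖) := by ring
        _ ≤ ρ * 1 * 1 := by
            refine mul_le_mul (mul_le_mul ?_ hm (by positivity) hx.nonneg)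
              (hmin _ (Or.inl ⟨i + 1, rfl⟩)) (by positivity) (mul_nonneg hx.nonneg zero_le_one)
            exact (pow_le_pow_left₀ (norm_nonneg _) (hx.small _ (by omega) hi1) _).trans
              ((pow_le_pow_of_le_one hx.nonneg hx.lt.le hq).trans (pow_one ρ).le)
        _ = ρ := by ring
    have hrest : ‖∑ i ∈ (Finset.range (N + 1)).erase i₀, T i‖ ≤ ρ / π ^ N := by
      refine norm_sum_le_of_forall_le_of_nonneg (div_nonneg hx.nonneg (pow_nonneg hP.pos.le _))
        fun i hi => ?_
      obtain ⟨hne, hi⟩ := Finset.mem_erase.1 hi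
      rw [le_div_iff₀ (pow_pos hP.pos _), mul_comm]
      exact hsmall i (Nat.le_of_lt_succ (Finset.mem_range.1 hi)) hne
    have hlt : ‖∑ i ∈ (Finset.range (N + 1)).erase i₀, T i‖ < ‖W.det‖ := by
      refine hrest.trans_lt ?_
      rw [div_lt_iff₀ (pow_pos hP.pos _), mul_comm, ih]
      exact hx.lt
    have hsum : (p : L) * (win hn p x (N + 1)).det = ∑ i ∈ Finset.range (N + 1), T i := by
      rw [win, det_update_rec hP.ne_zero]
    rw [← Finset.add_sum_erase _ _ (Finset.mem_range.2 (show i₀ < N + 1 by omega)), hmain] at hsum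
    have hn2 := congrArg norm hsum
    rw [norm_mul, norm_add_eq_max_of_norm_ne_norm hlt.ne', max_eq_left hlt.le] at hn2
    rw [pow_succ, mul_assoc, hn2, ih]

variable [CompleteSpace L]

/-- The period matrix is invertible. -/
theorem det_periods_ne_zero (hP : PSmall p L) (hn : 1 ≤ n) {ρ : ℝ} {x : ℕ → L}
    (hx : Small n x ρ) : (periods p n x).det ≠ 0 := by
  have ht : Tendsto (fun k => (Matrix.of fun r c => perSeq p n x r c k : Matrix (Fin n) (Fin n) L).det)
      atTop (𝓝 (periods p n x).det) := by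
    refine (continuous_id.matrix_det.tendsto _).comp ?_
    exact tendsto_pi_nhds.2 fun r => tendsto_pi_nhds.2 fun c => tendsto_perSeq hP hn hx r c
  have heq : ∀ k, ‖(Matrix.of fun r c => perSeq p n x r c k : Matrix (Fin n) (Fin n) L).det‖ =
      ‖(p : L)‖⁻¹ ^ (n - 1) := by
    intro k
    set N := n * k + (n - 1) with hN
    have e : (Matrix.of fun r c => perSeq p n x r c k : Matrix (Fin n) (Fin n) L) =
        (p : L) ^ k • win hn p x N := by
      ext r c
      have hw := win_eq_col (p := p) hn x N (n * k + r) (by omega) (by omega)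
      rw [show (⟨(n * k + r) % n, Nat.mod_lt _ hn⟩ : Fin n) = r from
        Fin.ext (by simp [Nat.mod_eq_of_lt r.isLt])] at hw
      rw [Matrix.smul_apply, smul_eq_mul, hw]
      rfl
    have h := norm_det_win hP hn hx N
    rw [e, det_smul, Fintype.card_fin, norm_mul, norm_pow, norm_pow, ← pow_mul, inv_pow]
    refine eq_inv_of_mul_eq_one_left ?_
    rw [mul_right_comm, ← pow_add, mul_comm k n, ← hN]
    exact h
  intro h0
  have := tendsto_nhds_unique (ht.norm.congr heq) tendsto_const_nhds
  rw [h0, norm_zero] at this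
  exact (pow_pos (inv_pos.2 hP.pos) (n - 1)).ne this

end Vale.Agent.P217.Generic
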