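/-
P217, block E: second order Taylor bound at two points of the generic fibre.
-/
import Vale.Agent.P217.Generic.Defs
import Vale.Agent.P217.ContLimit

noncomputable section

namespace Vale.Agent.P217.Generic

open MvPowerSeries

variable {p n : ℕ} [Fact p.Prime] {L : Type} [NormedField L]

/-- The remainder of the first order expansion. -/
def rem (e e' : Point p n L) (f : LT p n) : L :=
  e'.ev f - e.ev f - ∑ i, e.ev (pderiv _ i f) * (e'.ev (X i) - e.ev (X i))

theorem rem_add (e e' : Point p n L) (f g : LT p n) : rem e e' (f + g) = rem e e' f + rem e e' g := by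
  simp only [rem, map_add, add_mul, Finset.sum_add_distrib]
  ring

theorem rem_mul (e e' : Point p n L) (f g : LT p n) :
    rem e e' (f * g) = (e'.ev f - e.ev f) * (e'.ev g - e.ev g) + e.ev f * rem e e' g +
      e.ev g * rem e e' f := by
  simp only [rem, Derivation.leibniz, smul_eq_mul, map_add, map_mul, add_mul, Finset.sum_add_distrib,
    mul_assoc, ← Finset.mul_sum]
  ring

theorem rem_X (e e' : Point p n L) (i : Fin (n - 1)) : rem e e' (X i) = 0 := by
  classical
  rw [rem, Finset.sum_eq_single i (fun j _ hj => by rw [pderiv_X_of_ne (Ne.symm hj)]; simp)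
    (fun h => absurd (Finset.mem_univ i) h), pderiv_X_self, map_one, one_mul, sub_self]

theorem Point.rho_nonneg (e : Point p n L) : 0 ≤ e.rho :=
  (norm_nonneg (e.ev 0)).trans (e.norm_le_rho 0 (zero_mem _))

theorem Point.norm_le_pow (e : Point p n L) [IsUltrametricDist L] (D : ℕ) :
    ∀ a ∈ IsLocalRing.maximalIdeal (LT p n) ^ D, ‖e.ev a‖ ≤ e.rho ^ D := by
  induction D with
  | zero => intro a _; simpa using e.norm_le_one a
  | succ D ih =>
    intro a ha
    rw [pow_succ] at ha
    induction ha using Submodule.mul_induction_on' with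
    | mem_mul_mem x hx y hy =>
      rw [map_mul, norm_mul, pow_succ]
      exact mul_le_mul (ih x hx) (e.norm_le_rho y hy) (norm_nonneg _)
        (pow_nonneg e.rho_nonneg D)
    | add x _ y _ hx hy =>
      rw [map_add]
      exact (IsUltrametricDist.norm_add_le_max _ _).trans (max_le hx hy)

theorem mem_maximal_pow_of_coeff (D : ℕ) (a : LT p n)
    (ha : ∀ d : Fin (n - 1) →₀ ℕ, d.degree < D → coeff d a = 0) :
    a ∈ IsLocalRing.maximalIdeal (LT p n) ^ D :=
  Ideal.pow_right_mono Cont.span_X_le D (mem_span_X_pow_of_coeff_eq_zero D a ha)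

variable [IsUltrametricDist L]

theorem norm_sub_le' {x y : L} {B : ℝ} (hx : ‖x‖ ≤ B) (hy : ‖y‖ ≤ B) : ‖x - y‖ ≤ B := by
  rw [sub_eq_add_neg]
  exact (IsUltrametricDist.norm_add_le_max _ _).trans (max_le hx (by rwa [norm_neg]))

theorem coe_bounds (e e' : Point p n L) (hC : ∀ c, e'.ev (C c) = e.ev (C c)) {r : ℝ} (hr0 : 0 ≤ r)
    (hr : ∀ i, ‖e'.ev (X i) - e.ev (X i)‖ ≤ r)
    (P : MvPolynomial (Fin (n - 1)) (WittVector p (Res p n))) :
    ‖e'.ev (P : LT p n) - e.ev (P : LT p n)‖ ≤ r ∧ ‖rem e e' (P : LT p n)‖ ≤ r ^ 2 := by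
  induction P using MvPolynomial.induction_on with
  | C c =>
    rw [MvPolynomial.coe_C]
    simp [rem, hC c, hr0]
  | add f g hf hg =>
    rw [MvPolynomial.coe_add]
    refine ⟨?_, ?_⟩
    · rw [map_add, map_add, add_sub_add_comm]
      exact (IsUltrametricDist.norm_add_le_max _ _).trans (max_le hf.1 hg.1)
    · rw [rem_add]
      exact (IsUltrametricDist.norm_add_le_max _ _).trans (max_le hf.2 hg.2)
  | mul_X f i hf =>
    rw [MvPolynomial.coe_mul, MvPolynomial.coe_X]
    set F : LT p n := (f : LT p n)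
    refine ⟨?_, ?_⟩
    · rw [map_mul, map_mul, show e'.ev F * e'.ev (X i) - e.ev F * e.ev (X i) =
        (e'.ev F - e.ev F) * e'.ev (X i) + e.ev F * (e'.ev (X i) - e.ev (X i)) by ring]
      refine (IsUltrametricDist.norm_add_le_max _ _).trans (max_le ?_ ?_) <;> rw [norm_mul]
      · exact (mul_le_of_le_one_right (norm_nonneg _) (e'.norm_le_one _)).trans hf.1
      · exact (mul_le_of_le_one_left (norm_nonneg _) (e.norm_le_one _)).trans (hr i)
    · rw [rem_mul, rem_X, mul_zero, add_zero]
      refine (IsUltrametricDist.norm_add_le_max _ _).trans (max_le ?_ ?_) <;> rw [norm_mul]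
      · rw [sq]
        exact mul_le_mul hf.1 (hr i) (norm_nonneg _) hr0
      · exact (mul_le_of_le_one_left (norm_nonneg _) (e.norm_le_one _)).trans hf.2

/-- Functions on the deformation space are differentiable with uniform second order error. -/
theorem taylor_bound (e e' : Point p n L) (hC : ∀ c, e'.ev (C c) = e.ev (C c)) {r : ℝ}
    (hr : ∀ i, ‖e'.ev (X i) - e.ev (X i)‖ ≤ r) (f : LT p n) :
    ‖e'.ev f - e.ev f - ∑ i, e.ev (pderiv _ i f) * (e'.ev (X i) - e.ev (X i))‖ ≤ r ^ 2 := by
  classical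
  wlog hr0 : 0 ≤ r generalizing r
  · have h0 : ∀ i, ‖e'.ev (X i) - e.ev (X i)‖ ≤ (0 : ℝ) := fun i =>
      (hr i).trans (le_of_lt (lt_of_not_ge hr0))
    exact (this h0 le_rfl).trans (by rw [zero_pow two_ne_zero]; exact sq_nonneg r)
  show ‖rem e e' f‖ ≤ r ^ 2
  by_contra hcon
  set ρ := max e.rho e'.rho
  have hρ0 : 0 ≤ ρ := e.rho_nonneg.trans (le_max_left _ _)
  have hρ1 : ρ < 1 := max_lt e.rho_lt e'.rho_lt
  have key : ∀ D : ℕ, ‖rem e e' f‖ ≤ ρ ^ D * max 1 r := by
    intro D
    have hfin : {d : Fin (n - 1) →₀ ℕ | d.degree < D + 1}.Finite := by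
      refine (Set.finite_Iic (Finsupp.equivFunOnFinite.symm fun _ => D)).subset fun e he i => ?_
      have h1 : e.degree < D + 1 := he
      have h2 : e i ≤ e.degree := Finsupp.le_degree i e
      show e i ≤ D
      omega
    let P : MvPolynomial (Fin (n - 1)) (WittVector p (Res p n)) :=
      ∑ d ∈ hfin.toFinset, MvPolynomial.monomial d (coeff d f)
    set t : LT p n := f - (P : LT p n)
    have ht : ∀ d : Fin (n - 1) →₀ ℕ, d.degree < D + 1 → coeff d t = 0 := by
      intro d hd
      simp only [t, P, map_sub, MvPolynomial.coeff_coe, MvPolynomial.coeff_sum,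
        MvPolynomial.coeff_monomial]
      rw [Finset.sum_ite_eq', if_pos (by simpa using hd), sub_self]
    have hbound : ∀ e₀ : Point p n L, e₀.rho ≤ ρ → ‖e₀.ev t‖ ≤ ρ ^ D * max 1 r := by
      intro e₀ he₀
      calc ‖e₀.ev t‖ ≤ e₀.rho ^ D :=
            e₀.norm_le_pow D t (mem_maximal_pow_of_coeff D t fun d hd => ht d (by omega))
        _ ≤ ρ ^ D * 1 := by rw [mul_one]; exact pow_le_pow_left₀ e₀.rho_nonneg he₀ D
        _ ≤ ρ ^ D * max 1 r := by gcongr; exact le_max_left _ _
    have htail : ‖rem e e' t‖ ≤ ρ ^ D * max 1 r := by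
      refine norm_sub_le' (norm_sub_le' (hbound e' (le_max_right _ _)) (hbound e (le_max_left _ _)))
        (IsUltrametricDist.norm_sum_le_of_forall_le_of_nonneg (by positivity) fun i _ => ?_)
      rw [norm_mul]
      refine mul_le_mul ?_ ((hr i).trans (le_max_right _ _)) (norm_nonneg _) (pow_nonneg hρ0 D)
      refine (e.norm_le_pow D _ (mem_maximal_pow_of_coeff D _ fun d hd => ?_)).trans
        (pow_le_pow_left₀ e.rho_nonneg (le_max_left _ _) D)
      rw [coeff_pderiv, ht _ (by rw [map_add, Finsupp.degree_single]; omega), zero_mul]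
    have hsplit : rem e e' f = rem e e' (P : LT p n) + rem e e' t := by
      rw [← rem_add]
      simp [t]
    rcases le_max_iff.1 (hsplit ▸ IsUltrametricDist.norm_add_le_max _ _ :
      ‖rem e e' f‖ ≤ max ‖rem e e' (P : LT p n)‖ ‖rem e e' t‖) with h | h
    · exact absurd (h.trans (coe_bounds e e' hC hr0 hr P).2) hcon
    · exact h.trans htail
  have hlim : Filter.Tendsto (fun D : ℕ => ρ ^ D * max 1 r) Filter.atTop (nhds 0) := by
    simpa using (tendsto_pow_atTop_nhds_zero_of_lt_one hρ0 hρ1).mul_const (max 1 r)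
  exact hcon ((ge_of_tendsto' hlim key).trans (sq_nonneg r))

end Vale.Agent.P217.Generic
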