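/-
P217, block E: a deep-invariant prime not containing `p` is zero.
-/
import Vale.Agent.P217.Generic.Elements
import Vale.Agent.P217.Generic.Jacobian
import Vale.Agent.P217.Generic.Exists
import Vale.Agent.P217.Generic.Taylor

noncomputable section

namespace Vale.Agent.P217.Generic

open MvPowerSeries Filter Topology Matrix

set_option linter.unusedSectionVars false

variable {p n : ℕ} [Fact p.Prime] {L : Type} [NormedField L]

/-- The residue `r - i` modulo `n`. -/
def sig (i r : Fin n) : Fin n :=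
  if h : i.val ≤ r.val then ⟨r.val - i.val, by omega⟩ else ⟨r.val + n - i.val, by omega⟩

lemma shift_eq (b : L) (i : Fin n) (w : Fin n → L) (r : Fin n) :
    shift p b i w r = (if i.val ≤ r.val then 1 else (p : L)) * b ^ p ^ (sig i r).val * w (sig i r) := by
  unfold shift sig
  split_ifs with h h' <;> [skip; skip; omega]
  · simp [mul_comm]
  · rfl

lemma sig_injective (i : Fin n) : Function.Injective (sig i) := by
  intro r r' h
  have := congrArg Fin.val h
  unfold sig at this
  split_ifs at this <;> simp at this <;> exact Fin.ext (by omega)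

lemma exists_sig (r s : Fin n) : ∃ i, sig i r = s := by
  by_cases h : s.val ≤ r.val
  · refine ⟨⟨r.val - s.val, by omega⟩, Fin.ext ?_⟩
    unfold sig
    rw [dif_pos (by simp)]
    simp only
    omega
  · refine ⟨⟨r.val + n - s.val, by omega⟩, Fin.ext ?_⟩
    unfold sig
    rw [dif_neg (by simp only; omega)]
    simp only
    omega

/-- The Teichmüller character at a point. -/
def teichHom (e : Point p n L) : Res p n →* L :=
  e.ev.toMonoidHom.comp ((C : WittVector p (Res p n) →+* LT p n).toMonoidHom.comp (WittVector.teichmuller p))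

lemma teichHom_apply (e : Point p n L) (α : Res p n) :
    teichHom e α = e.ev (C (WittVector.teichmuller p α)) := rfl

/-- The conjugates of the Teichmüller character are pairwise different. -/
lemma teichPow_injective (e : Point p n L) :
    Function.Injective fun s : Fin n => (powMonoidHom (p ^ s.val)).comp (teichHom e) := by
  classical
  intro s s' h
  by_contra hne
  have hn : 2 ≤ n := by
    have := s.isLt; have := s'.isLt
    by_contra hc
    exact hne (Fin.ext (by omega))
  have := Fintype.ofFinite (Res p n)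
  have hp := (Fact.out : p.Prime)
  have key : ∀ α : Res p n, α ^ p ^ s.val = α ^ p ^ s'.val := by
    intro α
    have h1 := congrFun (congrArg DFunLike.coe h) α
    simp only [MonoidHom.comp_apply, powMonoidHom_apply, teichHom_apply, ← map_pow] at h1
    by_contra hα
    have hw : WittVector.teichmuller p (α ^ p ^ s.val) - WittVector.teichmuller p (α ^ p ^ s'.val) ≠ 0 := by
      refine fun hw => hα ?_
      have h2 := congrArg WittVector.constantCoeff (sub_eq_zero.1 hw)
      rw [WittVector.constantCoeff_apply, WittVector.constantCoeff_apply,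
        WittVector.teichmuller_coeff_zero, WittVector.teichmuller_coeff_zero] at h2
      exact h2
    have : (RingHom.ker e.ev).IsPrime := RingHom.ker_isPrime _
    refine C_notMem (P := RingHom.ker e.ev) (fun h => e.p_ne (RingHom.mem_ker.1 h)) hw ?_
    rw [RingHom.mem_ker, map_sub, map_sub, h1, sub_self]
  obtain ⟨g, hg⟩ := IsCyclic.exists_generator (α := (Res p n)ˣ)
  have hord : orderOf g = p ^ n - 1 := by
    rw [orderOf_eq_card_of_forall_mem_zpowers hg, Nat.card_units, GaloisField.card p n (by omega)]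
  have hlt : ∀ a : Fin n, p ^ a.val < p ^ n - 1 := fun a => by
    have h1 : p ^ a.val ≤ p ^ (n - 1) := Nat.pow_le_pow_right hp.pos (by have := a.isLt; omega)
    have h2 : p ^ n = p * p ^ (n - 1) := by rw [← pow_succ']; congr 1; omega
    have h3 : 2 * p ^ (n - 1) ≤ p * p ^ (n - 1) := Nat.mul_le_mul_right _ hp.two_le
    have h4 : 2 ≤ p ^ (n - 1) := hp.two_le.trans (Nat.le_self_pow (by omega) p)
    omega
  have := pow_injOn_Iio_orderOf (show p ^ s.val ∈ Set.Iio (orderOf g) by simpa [hord] using hlt s)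
    (show p ^ s'.val ∈ Set.Iio (orderOf g) by simpa [hord] using hlt s') (Units.ext (by simpa using key g))
  exact hne (Fin.ext (Nat.pow_right_injective hp.two_le this))

variable [IsUltrametricDist L]

lemma norm_dot_le {a b : Fin n → L} {A B : ℝ} (hA0 : 0 ≤ A) (hB0 : 0 ≤ B) (ha : ∀ r, ‖a r‖ ≤ A)
    (hb : ∀ r, ‖b r‖ ≤ B) : ‖a ⬝ᵥ b‖ ≤ A * B :=
  IsUltrametricDist.norm_sum_le_of_forall_le_of_nonneg (mul_nonneg hA0 hB0) fun r _ => by
    rw [norm_mul]; exact mul_le_mul (ha r) (hb r) (norm_nonneg _) hA0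

/-- The linear algebra of the tangent argument. -/
theorem tangent_estimate {W Wi : Matrix (Fin n) (Fin n) L} {lam γ d wx wy E : Fin n → L}
    {z : Fin n} {S : (Fin n → L) → Fin n → L} {a cst : L} {R K : ℝ}
    (hR1 : 1 ≤ R) (hK0 : 0 ≤ K) (hWi : ∀ c, Wi c ᵥ* W = Pi.single c 1) (hlamW : lam ᵥ* W = γ)
    (hWR : ∀ c r, ‖Wi c r‖ ≤ R) (hlR : ∀ r, ‖lam r‖ ≤ R) (hWK : ∀ r c, ‖W r c‖ ≤ K)
    (hwx : ∀ r, wx r = W r z) (hγz : γ z = 0) (hdz : d z = 0) (hwy : ∀ r, ‖wy r‖ ≤ K)
    (hE : ∀ r, wy r - wx r = (W *ᵥ d) r + E r) (hEb : ∀ r, ‖E r‖ ≤ K * ‖d‖ ^ 2)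
    (hS : ∀ (v : Fin n → L) (B : ℝ), (∀ r, ‖v r‖ ≤ B) → ∀ r, ‖S v r‖ ≤ B)
    (hSsub : ∀ v v' : Fin n → L, ∀ r, S v r - S v' r = S (fun r => v r - v' r) r)
    (ha : a ≠ 0) (hsmall : R * (K + 1) * ‖d‖ < 1) (hγd : ‖γ ⬝ᵥ d‖ ≤ ‖d‖ ^ 2)
    (hrel : ∀ r, cst * wx r = wy r + a * S wy r) :
    ‖lam ⬝ᵥ S wx‖ ≤ (R * (K + 1)) ^ 3 * ‖a‖ := by
  set C := R * (K + 1) with hC
  set δ := ‖d‖ with hδ
  have hC1 : 1 ≤ C := one_le_mul_of_one_le_of_one_le hR1 (by linarith)
  have hC0 : 0 ≤ C := zero_le_one.trans hC1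
  have hR0 : 0 ≤ R := zero_le_one.trans hR1
  have hRC : R ≤ C := le_mul_of_one_le_right hR0 (by linarith)
  have hKC : K ≤ C := le_trans (by linarith) (le_mul_of_one_le_left (by linarith) hR1)
  have hRK : R * K ≤ C := mul_le_mul_of_nonneg_left (by linarith) hR0
  have hδ0 : 0 ≤ δ := norm_nonneg _
  have ident : ∀ mu : Fin n → L, (mu ᵥ* W) z = 0 →
      (mu ᵥ* W) ⬝ᵥ d = -(a * (mu ⬝ᵥ S wy)) - mu ⬝ᵥ E := by
    intro mu hmu
    have h0 : mu ⬝ᵥ wx = 0 := by
      rw [← hmu]
      simp only [Matrix.vecMul, dotProduct, hwx]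
    have h1 : cst * (mu ⬝ᵥ wx) = mu ⬝ᵥ wy + a * (mu ⬝ᵥ S wy) := by
      simp only [dotProduct, Finset.mul_sum, ← Finset.sum_add_distrib]
      exact Finset.sum_congr rfl fun r _ => by rw [mul_left_comm, hrel r]; ring
    have h2 : mu ⬝ᵥ E = mu ⬝ᵥ wy - mu ⬝ᵥ wx - mu ⬝ᵥ (W *ᵥ d) := by
      simp only [dotProduct, ← Finset.sum_sub_distrib]
      exact Finset.sum_congr rfl fun r _ => by rw [← mul_sub, hE r]; ring
    rw [h0, mul_zero] at h1
    rw [← Matrix.dotProduct_mulVec, h2, h0]
    linear_combination -h1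
  have hδt : δ ≤ C * ‖a‖ := by
    have hc : ∀ c, ‖d c‖ ≤ max (C * ‖a‖) (C * δ ^ 2) := fun c => by
      by_cases hc0 : c = z
      · subst hc0
        rw [hdz, norm_zero]
        exact le_max_of_le_left (by positivity)
      have h := ident (Wi c) (by rw [hWi, Pi.single_eq_of_ne (Ne.symm hc0)])
      rw [hWi, single_dotProduct, one_mul] at h
      rw [h, sub_eq_add_neg]
      refine (IsUltrametricDist.norm_add_le_max _ _).trans (max_le_max ?_ ?_)
      · rw [norm_neg, norm_mul, mul_comm]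
        exact mul_le_mul_of_nonneg_right
          ((norm_dot_le hR0 hK0 (hWR c) (hS _ _ hwy)).trans hRK) (norm_nonneg _)
      · rw [norm_neg]
        refine (norm_dot_le hR0 (by positivity) (hWR c) hEb).trans ?_
        rw [← mul_assoc]
        exact mul_le_mul_of_nonneg_right hRK (sq_nonneg _)
    have hδ' : δ ≤ max (C * ‖a‖) (C * δ ^ 2) :=
      (pi_norm_le_iff_of_nonneg (le_max_of_le_left (by positivity))).2 hc
    rcases le_max_iff.1 hδ' with h | h
    · exact h
    · rcases hδ0.eq_or_lt with h0 | h0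
      · rw [← h0]; positivity
      · have h3 : C * δ ^ 2 < 1 * δ := by
          rw [sq, ← mul_assoc]; exact mul_lt_mul_of_pos_right hsmall h0
        linarith
  have hδ1 : δ ≤ 1 := le_trans (le_mul_of_one_le_left hδ0 hC1) hsmall.le
  have hwdiff : ∀ r, ‖wy r - wx r‖ ≤ C * δ := fun r => by
    rw [hE r]
    refine (IsUltrametricDist.norm_add_le_max _ _).trans (max_le ?_ ?_)
    · exact (norm_dot_le hK0 hδ0 (hWK r) (norm_le_pi_norm d)).trans
        (mul_le_mul_of_nonneg_right hKC hδ0)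
    · exact (hEb r).trans (mul_le_mul hKC (pow_le_of_le_one hδ0 hδ1 two_ne_zero) (by positivity) hC0)
  have h := ident lam (by rw [hlamW]; exact hγz)
  rw [hlamW] at h
  have hπt : a * (lam ⬝ᵥ S wx) = (-(γ ⬝ᵥ d) + -(lam ⬝ᵥ E)) +
      -(a * (lam ⬝ᵥ S (fun r => wy r - wx r))) := by
    have e1 : lam ⬝ᵥ S (fun r => wy r - wx r) = lam ⬝ᵥ S wy - lam ⬝ᵥ S wx := by
      simp only [dotProduct, ← Finset.sum_sub_distrib]
      exact Finset.sum_congr rfl fun r _ => by rw [← hSsub]; ring
    rw [e1]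
    linear_combination h
  have hap : 0 < ‖a‖ := norm_pos_iff.2 ha
  have hsq : δ ^ 2 ≤ C ^ 2 * ‖a‖ * ‖a‖ :=
    (pow_le_pow_left₀ hδ0 hδt 2).trans (le_of_eq (by ring))
  have h2 : ‖a * (lam ⬝ᵥ S wx)‖ ≤ ‖a‖ * (C ^ 3 * ‖a‖) := by
    rw [hπt]
    have hmain : C * δ ^ 2 ≤ ‖a‖ * (C ^ 3 * ‖a‖) :=
      (mul_le_mul_of_nonneg_left hsq hC0).trans (le_of_eq (by ring))
    refine (IsUltrametricDist.norm_add_le_max _ _).trans (max_le ?_ ?_)
    · refine (IsUltrametricDist.norm_add_le_max _ _).trans (max_le ?_ ?_)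
      · rw [norm_neg]
        exact hγd.trans ((le_mul_of_one_le_left (sq_nonneg δ) hC1).trans hmain)
      · rw [norm_neg]
        refine (norm_dot_le hR0 (by positivity) hlR hEb).trans (le_trans ?_ hmain)
        rw [← mul_assoc]
        exact mul_le_mul_of_nonneg_right hRK (sq_nonneg _)
    · rw [norm_neg, norm_mul]
      refine mul_le_mul_of_nonneg_left ?_ hap.le
      calc ‖lam ⬝ᵥ S (fun r => wy r - wx r)‖ ≤ R * (C * δ) :=
            norm_dot_le hR0 (by positivity) hlR (hS _ _ hwdiff)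
        _ ≤ C * (C * (C * ‖a‖)) :=
            mul_le_mul hRC (mul_le_mul_of_nonneg_left hδt hC0) (by positivity) hC0
        _ = C ^ 3 * ‖a‖ := by ring
  rw [norm_mul] at h2
  exact le_of_mul_le_mul_left h2 hap

variable [CompleteSpace L]

/-- A deep element of the stabilizer moves a point a little and gives a period relation. -/
theorem exists_moved (hn : 1 ≤ n) {F : FormalGroup (LT p n)} (hF : IsUniversalLaw p n F)
    (hL : LawFacts p n F) (hB : ActionStatement p n) {T0 T1 k : ℕ}
    (hC : ∀ g φ, DeepStabilizer p n F T1 g → IsAction p n F g φ →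
      ∀ a, φ a - a ∈ IsLocalRing.maximalIdeal (LT p n) ^ k)
    {P : Ideal (LT p n)}
    (hP : ∀ g φ, DeepStabilizer p n F T0 g → IsAction p n F g φ → P.map φ.toRingHom ≤ P)
    (e : Point p n L) (heP : ∀ a ∈ P, e.ev a = 0) {f : LT p n} (hf : f ∈ P)
    (α : Res p n) (i : Fin n) {t : ℕ} (ht : max 2 (max T0 T1) ≤ t) (γ : Fin n → L)
    (hγ : ∀ i' : Fin (n - 1), γ ⟨i'.val + 1, by omega⟩ = e.ev (pderiv _ i' f))
    (hγ0 : γ ⟨0, hn⟩ = 0) :
    ∃ y : ℕ → L, ∃ cst : L, Small n y e.rho ∧ ‖dvec (n := n) e.xval y‖ ≤ e.rho ^ k ∧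
      ‖γ ⬝ᵥ dvec e.xval y‖ ≤ ‖dvec (n := n) e.xval y‖ ^ 2 ∧
      ∀ r, cst * pvec p n e.xval r =
        pvec p n y r + (p : L) ^ t * shift p (teichHom e α) i (pvec p n y) r := by
  classical
  set M := n * t + i.val with hM
  set T := max 2 (max T0 T1) with hT
  have hTM : T ≤ p ^ M := by
    refine le_trans ?_ ((Nat.lt_pow_self (Fact.out : p.Prime).one_lt (n := M)).le)
    have : t ≤ n * t := Nat.le_mul_of_pos_left _ hn
    omega
  have hdeep := slotSeries_deep hL (fun _ : Fin 1 => α) (fun _ => M) (T := T)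
    (le_max_left _ _) (fun _ => hTM)
  set g := slotSeries F (fun _ : Fin 1 => α) (fun _ => M) with hg
  have hgeq : g = serAdd (special p n F) PowerSeries.X (PowerSeries.C α * PowerSeries.X ^ p ^ M) := by
    simp [hg, slotSeries]
  obtain ⟨φ, hφ, -⟩ := (hB F hF).1 g hdeep.1
  have hPφ : P.map φ.toRingHom ≤ P := hP g φ ⟨hdeep.1, fun b hb => hdeep.2 b (lt_of_lt_of_le hb
    ((le_max_left _ _).trans (le_max_right _ _)))⟩ hφ
  have hclose := hC g φ ⟨hdeep.1, fun b hb => hdeep.2 b (lt_of_lt_of_le hb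
    ((le_max_right _ _).trans (le_max_right _ _)))⟩ hφ
  obtain ⟨fl, hfl, hhom⟩ := hφ
  have hρ := (e.small hn).nonneg
  have hd : ‖dvec (n := n) e.xval (e.comp φ).xval‖ ≤ e.rho ^ k := by
    refine (pi_norm_le_iff_of_nonneg (pow_nonneg hρ k)).2 fun c => ?_
    unfold dvec
    split_ifs
    · simpa using pow_nonneg hρ k
    · have hc := e.norm_le_pow k _ (hclose (par p n c.val))
      rw [map_sub] at hc
      exact hc
  refine ⟨(e.comp φ).xval, e.ev (PowerSeries.coeff 1 fl), (e.comp φ).small hn, hd, ?_, fun r => ?_⟩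
  · set r₀ := ‖dvec (n := n) e.xval (e.comp φ).xval‖
    have hC' : ∀ c, (e.comp φ).ev (C c) = e.ev (C c) := fun c => by
      show e.ev (φ (C c)) = e.ev (C c)
      rw [show (C c : LT p n) = algebraMap (WittVector p (Res p n)) (LT p n) c by
        simp [MvPowerSeries.algebraMap_apply], AlgHom.commutes]
    let emb : Fin (n - 1) → Fin n := fun i' => ⟨i'.val + 1, by omega⟩
    have hdv : ∀ i' : Fin (n - 1), (e.comp φ).ev (X i') - e.ev (X i') =
        dvec e.xval (e.comp φ).xval (emb i') := fun i' => by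
      have hXi : (par p n (i'.val + 1) : LT p n) = X i' := by
        rw [par, dif_pos ⟨by omega, by omega⟩]
        exact congrArg X (Fin.ext (by simp))
      rw [dvec, if_neg (by simp [emb]), ← hXi]
      rfl
    have ht := taylor_bound e (e.comp φ) hC' (r := r₀) (fun i' => by
      rw [hdv]; exact norm_le_pi_norm _ _) f
    rw [show (e.comp φ).ev f = 0 from heP _ (hPφ (Ideal.mem_map_of_mem φ.toRingHom hf)),
      heP f hf, sub_zero, zero_sub, norm_neg] at ht
    refine le_trans (le_of_eq (congrArg norm ?_)) ht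
    refine (Fintype.sum_of_injective emb (fun a b h => Fin.ext (by simpa [emb] using h)) _ _ ?_ ?_).symm
    · intro c hc
      have hc0 : c = ⟨0, hn⟩ := by
        by_contra hne
        have : c.val ≠ 0 := fun h0 => hne (Fin.ext h0)
        exact hc ⟨⟨c.val - 1, by omega⟩, Fin.ext (by simp only [emb]; omega)⟩
      rw [hc0, hγ0, zero_mul]
    · intro i'
      rw [hdv, hγ i']
  · exact period_relation hn e hF hhom α t i (by rw [hfl, hgeq]) r

/-- The tangent argument at one point. -/
theorem ev_pderiv_eq_zero (hn : 1 ≤ n) {F : FormalGroup (LT p n)} (hF : IsUniversalLaw p n F)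
    (hL : LawFacts p n F) (hB : ActionStatement p n) (hC : ContinuityStatement p n)
    {P : Ideal (LT p n)} (hP : DeepInvariant p n F P) (e : Point p n L) (heP : ∀ a ∈ P, e.ev a = 0)
    {f : LT p n} (hf : f ∈ P) (j : Fin (n - 1)) : e.ev (pderiv _ j f) = 0 := by
  classical
  have hS := e.psmall
  have hx : Small n e.xval e.rho := e.small hn
  set W := periods p n e.xval with hW
  have hdet : W.det ≠ 0 := det_periods_ne_zero hS hn hx
  obtain ⟨K, hK0, hK⟩ := exists_periods_bounds hS hn hx.nonneg hx.lt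
  set wx := pvec p n e.xval with hwx
  set z : Fin n := ⟨0, hn⟩ with hz
  have hwx' : ∀ r, wx r = W r z := fun r => by
    simp only [hwx, pvec, dif_pos (show 0 < n by omega), hW, hz]
  set γ : Fin n → L := fun c =>
    if h : c.val = 0 then 0 else e.ev (pderiv _ (⟨c.val - 1, by omega⟩ : Fin (n - 1)) f) with hγ
  have hγ1 : ∀ i' : Fin (n - 1), γ ⟨i'.val + 1, by omega⟩ = e.ev (pderiv _ i' f) := fun i' => by
    simp [hγ]
  have hγz : γ z = 0 := by simp [hγ, hz]
  set lam := γ ᵥ* W⁻¹ with hlam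
  have hlamW : lam ᵥ* W = γ := by
    rw [hlam, Matrix.vecMul_vecMul, Matrix.nonsing_inv_mul _ (Ne.isUnit hdet), Matrix.vecMul_one]
  have hmuW : ∀ c, W⁻¹ c ᵥ* W = Pi.single c 1 := fun c => by
    funext c'
    have h := congrFun (congrFun (Matrix.nonsing_inv_mul W (Ne.isUnit hdet)) c) c'
    rw [Matrix.one_apply] at h
    rw [Pi.single_apply]
    simpa [Matrix.vecMul, dotProduct, Matrix.mul_apply, eq_comm (a := c')] using h
  set R := 1 + (∑ c, ∑ r, ‖W⁻¹ c r‖) + ∑ r, ‖lam r‖ with hR
  have hR1 : 1 ≤ R := by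
    have : 0 ≤ (∑ c, ∑ r, ‖W⁻¹ c r‖) + ∑ r, ‖lam r‖ := by positivity
    linarith
  have hWR : ∀ c r, ‖W⁻¹ c r‖ ≤ R := fun c r => by
    have h1 := Finset.single_le_sum (fun r _ => norm_nonneg (W⁻¹ c r)) (Finset.mem_univ r)
    have h2 := Finset.single_le_sum (f := fun c => ∑ r, ‖W⁻¹ c r‖) (fun c _ => by positivity)
      (Finset.mem_univ c)
    have h3 : 0 ≤ ∑ r, ‖lam r‖ := by positivity
    linarith
  have hlR : ∀ r, ‖lam r‖ ≤ R := fun r => by
    have h1 := Finset.single_le_sum (fun r _ => norm_nonneg (lam r)) (Finset.mem_univ r)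
    have h2 : 0 ≤ ∑ c, ∑ r, ‖W⁻¹ c r‖ := by positivity
    linarith
  have key : ∀ (α : Res p n) (i : Fin n), lam ⬝ᵥ shift p (teichHom e α) i wx = 0 := by
    intro α i
    obtain ⟨T0, hT0⟩ := hP
    set b := teichHom e α with hb
    have hbn : ‖b‖ ≤ 1 := e.norm_le_one _
    have hshift : ∀ (v : Fin n → L) (B : ℝ), (∀ r, ‖v r‖ ≤ B) → ∀ r, ‖shift p b i v r‖ ≤ B := by
      intro v B hv r
      rw [shift_eq, norm_mul, norm_mul, norm_pow]
      refine (mul_le_of_le_one_left (norm_nonneg _) ?_).trans (hv _)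
      refine mul_le_one₀ ?_ (by positivity) (pow_le_one₀ (norm_nonneg _) hbn)
      split_ifs <;> simp [hS.lt.le]
    have hC0 : 0 < R * (K + 1) := by positivity
    obtain ⟨k, hk⟩ := exists_pow_lt_of_lt_one (inv_pos.2 hC0) hx.lt
    obtain ⟨T1, hT1⟩ := hC F hF k
    have hbound : ∀ᶠ t : ℕ in atTop,
        ‖lam ⬝ᵥ shift p b i wx‖ ≤ (R * (K + 1)) ^ 3 * ‖(p : L)‖ ^ t := by
      filter_upwards [eventually_ge_atTop (max 2 (max T0 T1))] with t ht
      obtain ⟨y, cst, hy, hd, hγd, hrel⟩ :=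
        exists_moved hn hF hL hB hT1 hT0 e heP hf α i ht γ hγ1 hγz
      rw [← norm_pow]
      refine tangent_estimate (S := shift p b i) (Wi := W⁻¹) (z := z) hR1 hK0 hmuW hlamW hWR hlR
        (fun r c => (hK _ hx).1 r c) hwx' hγz (by simp [dvec, hz]) ?_
        (E := fun r => pvec p n y r - wx r - (W *ᵥ dvec e.xval y) r) (fun r => by ring) ?_ hshift
        (fun v v' r => by rw [shift_eq, shift_eq, shift_eq]; ring) (pow_ne_zero _ hS.ne_zero) ?_ hγd hrel
      · intro r
        simp only [pvec, dif_pos (show 0 < n by omega)]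
        exact (hK y hy).1 r _
      · intro r
        have h := (hK _ hx).2 y hy ‖dvec (n := n) e.xval y‖ (norm_nonneg _) (fun i' h1 h2 => by
          have := norm_le_pi_norm (dvec (n := n) e.xval y) ⟨i', h2⟩
          simpa [dvec, show i' ≠ 0 by omega] using this) r
        refine le_trans (le_of_eq (congrArg norm ?_)) h
        simp only [hwx, Matrix.mulVec, dotProduct, hW]
        exact congrArg _ (Finset.sum_congr rfl fun c _ => mul_comm _ _)
      · calc R * (K + 1) * ‖dvec (n := n) e.xval y‖ ≤ R * (K + 1) * e.rho ^ k :=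
              mul_le_mul_of_nonneg_left hd hC0.le
          _ < R * (K + 1) * (R * (K + 1))⁻¹ := mul_lt_mul_of_pos_left hk hC0
          _ = 1 := mul_inv_cancel₀ hC0.ne'
    have hlim : Tendsto (fun t : ℕ => (R * (K + 1)) ^ 3 * ‖(p : L)‖ ^ t) atTop (𝓝 0) := by
      simpa using (tendsto_pow_atTop_nhds_zero_of_lt_one hS.pos.le hS.lt).const_mul ((R * (K + 1)) ^ 3)
    exact norm_le_zero_iff.1 (ge_of_tendsto hlim hbound)
  -- independence of the characters
  have hind : ∀ i r, lam r * wx (sig i r) = 0 := by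
    intro i r
    have hli : LinearIndependent L fun r : Fin n =>
        ⇑((powMonoidHom (p ^ (sig i r).val)).comp (teichHom e)) :=
      (linearIndependent_monoidHom (Res p n) L).comp _ ((teichPow_injective e).comp (sig_injective i))
    have h0 := Fintype.linearIndependent_iff.1 hli
      (fun r => lam r * wx (sig i r) * if i.val ≤ r.val then 1 else (p : L)) (by
        funext α
        rw [Finset.sum_apply, Pi.zero_apply, ← key α i]
        refine Finset.sum_congr rfl fun r _ => ?_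
        rw [shift_eq]
        simp only [Pi.smul_apply, smul_eq_mul, MonoidHom.comp_apply, powMonoidHom_apply]
        ring) r
    rcases mul_eq_zero.1 h0 with h | h
    · exact h
    · split_ifs at h
      · exact absurd h one_ne_zero
      · exact absurd h hS.ne_zero
  obtain ⟨s, hs⟩ : ∃ s, wx s ≠ 0 := by
    by_contra hcon
    push Not at hcon
    exact hdet (Matrix.det_eq_zero_of_column_eq_zero z fun r => by rw [← hwx']; exact hcon r)
  have hlam0 : lam = 0 := funext fun r => by
    obtain ⟨i, hi⟩ := exists_sig r s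
    have := hind i r
    rw [hi] at this
    exact (mul_eq_zero.1 this).resolve_right hs
  have := congrFun hlamW (⟨j.val + 1, by omega⟩ : Fin n)
  rw [hlam0, Matrix.zero_vecMul, Pi.zero_apply, hγ] at this
  simpa using this.symm

/-- Block E. -/
theorem heightZero (hn : 1 ≤ n) (hR : RankOneStatement) (hFacts : FactsStatement p n)
    (hB : ActionStatement p n) (hC : ContinuityStatement p n) : HeightZeroStatement p n := by
  intro F hF P hPp hp hP
  refine eq_bot_of_pderiv_stable P (by simpa [par] using hp) fun f hf j => ?_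
  by_contra hg
  obtain ⟨L, _, _, _, e, heP, hne⟩ := exists_point hR hn P hp hg
  exact hne (ev_pderiv_eq_zero hn hF (hFacts F hF).1 hB hC hP e heP hf j)

end Vale.Agent.P217.Generic
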